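import Vale.Agent.P231.QF.MainOf
import Vale.Agent.P231.L3.MainThree

/-! P231: a Blaschke manifold with cut multiplicity three and dimension at least five is isometric
to the quaternionic projective space. -/

set_option maxSynthPendingDepth 3
set_option linter.unusedSectionVars false

open Bundle Manifold Set Filter Module MeasureTheory
open scoped ContDiff Manifold Topology ENNReal

namespace Vale.Agent.P231.QF

noncomputable section

open Vale.Agent.P234 Vale.Agent.P231 Vale.Agent.P231.Fm Vale.Agent.P231.W Vale.Agent.P231.WR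
  Vale.Agent.P231.H766 Vale.Agent.P231.WG Vale.Agent.P231.S2II Vale.Agent.P231.WQ
  Vale.Agent.P231.L3 Vale.Agent.P231.H703 Vale.Agent.P231.H512

variable {E : Type*} [NormedAddCommGroup E] [NormedSpace ℝ E]
  {M : Type*} [MetricSpace M] [ChartedSpace E M]
  [RiemannianBundle (fun x : M => TangentSpace 𝓘(ℝ, E) x)]
  {e : ∀ x : M, TangentSpace 𝓘(ℝ, E) x → M}
  [FiniteDimensional ℝ E] [IsManifold 𝓘(ℝ, E) ∞ M]
  [IsContMDiffRiemannianBundle 𝓘(ℝ, E) ∞ E (fun x : M => TangentSpace 𝓘(ℝ, E) x)]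
  [CompactSpace M] [ConnectedSpace M] [IsRiemannianManifold 𝓘(ℝ, E) M]

theorem rig_three (he : IsExp e) (hinj : Blaschke.InjGeDiam e) (hdim : 5 ≤ finrank ℝ E)
    (hl : IsLeast {k | Blaschke.MultLE e k} 3) : Rig e (Metric.diam (univ : Set M)) 3 := by
  refine rig_three_of he hinj hdim hl ?_
  intro F D hD hB hdiam hl n N hN hE hn p o ρ r₀ hJ hρ c η h
  exact abs_c_le F hD hB hdiam hl hN hE hn hJ hρ h

/-- **A Blaschke manifold with cut multiplicity three and dimension at least five is isometric to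
the quaternionic projective space.** -/
theorem main_hp (he : IsExp e) (hinj : Blaschke.InjGeDiam e) (hdim : 5 ≤ finrank ℝ E)
    (hl : IsLeast {k | Blaschke.MultLE e k} 3) :
    ∃ n : ℕ, 4 * n = finrank ℝ E ∧ ∃ Z : M → Fin (n + 1) → Quaternion ℝ,
      (∀ x, ∑ i, ‖Z x i‖ ^ 2 = 1) ∧
      (∀ x y, dist x y = 2 * Metric.diam (univ : Set M) / Real.pi *
        Real.arccos ‖∑ i, star (Z x i) * Z y i‖) ∧
      ∀ z : Fin (n + 1) → Quaternion ℝ, ∑ i, ‖z i‖ ^ 2 = 1 →
        ∃ x, ‖∑ i, star (Z x i) * z i‖ = 1 := by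
  obtain ⟨p⟩ : Nonempty M := inferInstance
  exact isometric_of_rig' (rig_three he hinj hdim hl) p hdim

end

end Vale.Agent.P231.QF
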