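import Vale.Agent.P231.QF.QF8
import Vale.Agent.P231.H512.Main
import Vale.Agent.P231.L3.FinalThree

/-! P231: a Blaschke manifold with cut multiplicity three and dimension at least five is isometric
to the quaternionic projective space, from the bound of the coefficient `c`. -/

set_option maxSynthPendingDepth 3
set_option linter.unusedSectionVars false

open Bundle Manifold Set Filter Module MeasureTheory
open scoped ContDiff Manifold Topology ENNReal

namespace Vale.Agent.P231.QF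

noncomputable section

open Vale.Agent.P234 Vale.Agent.P231 Vale.Agent.P231.Fm Vale.Agent.P231.W Vale.Agent.P231.WR
  Vale.Agent.P231.H766 Vale.Agent.P231.WG Vale.Agent.P231.S2II Vale.Agent.P231.WQ
  Vale.Agent.P231.L3 Vale.Agent.P231.H703 Vale.Agent.P231.H512

variable {E : Type*} [NormedAddCommGroup E] [NormedSpace ℝ E]
  {M : Type*} [MetricSpace M] [ChartedSpace E M]
  [RiemannianBundle (fun x : M => TangentSpace 𝓘(ℝ, E) x)]
  {e : ∀ x : M, TangentSpace 𝓘(ℝ, E) x → M}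
  [FiniteDimensional ℝ E] [IsManifold 𝓘(ℝ, E) ∞ M]
  [IsContMDiffRiemannianBundle 𝓘(ℝ, E) ∞ E (fun x : M => TangentSpace 𝓘(ℝ, E) x)]
  [CompactSpace M] [ConnectedSpace M] [IsRiemannianManifold 𝓘(ℝ, E) M]

theorem rig_three_of (he : IsExp e) (hinj : Blaschke.InjGeDiam e) (hdim : 5 ≤ finrank ℝ E)
    (hl : IsLeast {k | Blaschke.MultLE e k} 3)
    (hC : ∀ (F : Facts e) {D : ℝ} (hD : 0 < D) (hB : InjGE e D)
      (hdiam : ∀ p q : M, dist p q ≤ D)
      (hl : ∀ x y : M, dist x y = D → finrank ℝ (H775.Pl e D x y) = 2 * 1 + 2) {n N : ℕ}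
      (_ : finrank ℝ E = N + 1) (_ : N + 1 = (2 * 1 + 2) * (n + 1)) (_ : 1 ≤ n) {p : M}
      {o : TangentSpace 𝓘(ℝ, E) p → Fm.Lam (TangentSpace 𝓘(ℝ, E) p)}
      {ρ : TangentSpace 𝓘(ℝ, E) p → ℝ} {r₀ : ℝ}
      (hJ : FE.LineP e D p 1 (FE.PiP e D p) o) (hρ : WE.Rho e D p ρ r₀) {c : ℤ}
      {η : Form (dPr e D)} (_ : b0P F hD hB hdiam (FE.FF F hD hB hdiam hl hJ hρ 1) ^ 2 =
        (2 * (2 * FE.kap 1 1 * c)) • Form.pull Pr.v map_v (Form.pull foot map_foot
          (FE.FF F hD hB hdiam hl hJ hρ 1)) + η.d), |c| ≤ 1) :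
    Rig e (Metric.diam (univ : Set M)) 3 := by
  borelize M
  obtain ⟨N, hN⟩ : ∃ N, finrank ℝ E = N + 1 := ⟨finrank ℝ E - 1, by omega⟩
  have F : Facts e := facts_of_isExp he
  obtain ⟨x₀⟩ : Nonempty M := inferInstance
  have hD : 0 < Metric.diam (univ : Set M) := diam_pos he hN x₀
  have hB : InjGE e (Metric.diam (univ : Set M)) := injGE_of_injOn F hD hinj
  have hd : ∀ x y : M, dist x y ≤ Metric.diam (univ : Set M) := fun x y =>
    Metric.dist_le_diam_of_mem (isCompact_univ.isBounded) (mem_univ x) (mem_univ y)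
  obtain ⟨-, h2, hP⟩ := mult_of_isLeast he F hD hB hd rfl hN hl
  obtain ⟨k, hk⟩ := CoZ.dvd_finrank F hD hB hd (n := 1) hP (by omega)
  obtain ⟨n, rfl⟩ : ∃ n, k = n + 1 := ⟨k - 1, by omega⟩
  refine rig_of_volume he hinj hN hl
    (volume_three_of_c F hD hB hd hP hN (n := n) (by omega) (by omega) x₀ ?_)
  intro o ρ r₀ hJ hρ c η h
  exact hC F hD hB hd hP hN (n := n) (by omega) (by omega) hJ hρ h

end

end Vale.Agent.P231.QF
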