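import Vale.Agent.P231.H512.FS1
import Mathlib.Analysis.Quaternion
import Mathlib.Analysis.InnerProductSpace.PiL2

/-! The quaternionic Fubini-Study distance of unit vectors: triangle inequality, metric
derivative, and a Lipschitz criterion. -/

set_option maxSynthPendingDepth 3
set_option linter.unusedSectionVars false

open Set Filter Quaternion
open scoped Topology

namespace Vale.Agent.P231.QF

noncomputable section

/-- the space of `n`-tuples of quaternions, a right vector space -/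
abbrev HV (n : ℕ) := PiLp 2 (fun _ : Fin n => Quaternion ℝ)

variable {n : ℕ}

/-- the quaternionic inner product -/
def hp (z w : HV n) : Quaternion ℝ := ∑ i, star (z i) * w i

/-- right multiplication -/
def rm (z : HV n) (q : Quaternion ℝ) : HV n := WithLp.toLp 2 fun i => z i * q

theorem rm_apply (z : HV n) (q : Quaternion ℝ) (i : Fin n) : rm z q i = z i * q := rfl

theorem re_sum {ι : Type*} (s : Finset ι) (f : ι → Quaternion ℝ) :
    (∑ i ∈ s, f i).re = ∑ i ∈ s, (f i).re := by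
  classical
  induction s using Finset.induction_on with
  | empty => rfl
  | insert a s ha ih => rw [Finset.sum_insert ha, Finset.sum_insert ha, re_add, ih]

theorem hp_re (z w : HV n) : (hp z w).re = inner ℝ z w := by
  unfold hp
  rw [re_sum, PiLp.inner_apply]
  refine Finset.sum_congr rfl fun i _ => ?_
  rw [Quaternion.inner_def, Quaternion.re_mul, Quaternion.re_mul]
  simp only [re_star, imI_star, imJ_star, imK_star]
  ring

theorem hp_add_left (x y z : HV n) : hp (x + y) z = hp x z + hp y z := by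
  unfold hp
  rw [← Finset.sum_add_distrib]
  refine Finset.sum_congr rfl fun i _ => ?_
  rw [PiLp.add_apply, star_add, add_mul]

theorem hp_add_right (x y z : HV n) : hp x (y + z) = hp x y + hp x z := by
  unfold hp
  rw [← Finset.sum_add_distrib]
  refine Finset.sum_congr rfl fun i _ => ?_
  rw [PiLp.add_apply, mul_add]

theorem hp_smul_left (r : ℝ) (x y : HV n) : hp (r • x) y = r • hp x y := by
  unfold hp
  rw [Finset.smul_sum]
  refine Finset.sum_congr rfl fun i _ => ?_
  rw [PiLp.smul_apply, Quaternion.star_smul, smul_mul_assoc]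

theorem hp_smul_right (r : ℝ) (x y : HV n) : hp x (r • y) = r • hp x y := by
  unfold hp
  rw [Finset.smul_sum]
  refine Finset.sum_congr rfl fun i _ => ?_
  rw [PiLp.smul_apply, mul_smul_comm]

theorem hp_neg_left (x y : HV n) : hp (-x) y = -hp x y := by
  have := hp_smul_left (-1) x y
  rwa [neg_one_smul, neg_one_smul] at this

theorem hp_neg_right (x y : HV n) : hp x (-y) = -hp x y := by
  have := hp_smul_right (-1) x y
  rwa [neg_one_smul, neg_one_smul] at this

theorem hp_sub_left (x y z : HV n) : hp (x - y) z = hp x z - hp y z := by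
  rw [sub_eq_add_neg, hp_add_left, hp_neg_left, sub_eq_add_neg]

theorem hp_sub_right (x y z : HV n) : hp x (y - z) = hp x y - hp x z := by
  rw [sub_eq_add_neg, hp_add_right, hp_neg_right, sub_eq_add_neg]

theorem hp_zero_left (x : HV n) : hp 0 x = 0 := by
  have := hp_smul_left 0 x x
  rwa [zero_smul, zero_smul] at this

theorem hp_zero_right (x : HV n) : hp x 0 = 0 := by
  have := hp_smul_right 0 x x
  rwa [zero_smul, zero_smul] at this

theorem hp_rm_right (z w : HV n) (q : Quaternion ℝ) : hp z (rm w q) = hp z w * q := by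
  unfold hp
  rw [Finset.sum_mul]
  refine Finset.sum_congr rfl fun i _ => ?_
  rw [rm_apply, mul_assoc]

theorem hp_rm_left (z w : HV n) (q : Quaternion ℝ) : hp (rm z q) w = star q * hp z w := by
  unfold hp
  rw [Finset.mul_sum]
  refine Finset.sum_congr rfl fun i _ => ?_
  rw [rm_apply, star_mul, mul_assoc]

theorem star_hp (z w : HV n) : star (hp z w) = hp w z := by
  unfold hp
  rw [star_sum]
  refine Finset.sum_congr rfl fun i _ => ?_
  rw [star_mul, star_star]

theorem norm_hp_comm (z w : HV n) : ‖hp z w‖ = ‖hp w z‖ := by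
  rw [← star_hp w z, norm_star]

theorem hp_self (z : HV n) : hp z z = ((‖z‖ ^ 2 : ℝ) : Quaternion ℝ) := by
  have h1 : ∀ i, star (z i) * z i = ((‖z i‖ ^ 2 : ℝ) : Quaternion ℝ) := fun i => by
    rw [Quaternion.star_mul_self, Quaternion.normSq_eq_norm_mul_self, pow_two]
  have h2 : ‖z‖ ^ 2 = ∑ i, ‖z i‖ ^ 2 := by
    rw [PiLp.norm_sq_eq_of_L2]
  have h3 : ∀ (s : Finset (Fin n)) (f : Fin n → ℝ),
      ((∑ i ∈ s, f i : ℝ) : Quaternion ℝ) = ∑ i ∈ s, (f i : Quaternion ℝ) := by
    intro s f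
    classical
    induction s using Finset.induction_on with
    | empty => simp
    | insert a s ha ih => rw [Finset.sum_insert ha, Finset.sum_insert ha, coe_add, ih]
  unfold hp
  rw [h2, h3]
  exact Finset.sum_congr rfl fun i _ => h1 i

theorem hp_unit {z : HV n} (hz : ‖z‖ = 1) : hp z z = 1 := by
  rw [hp_self, hz]
  simp

theorem rm_rm (z : HV n) (p q : Quaternion ℝ) : rm (rm z p) q = rm z (p * q) := by
  ext1 i
  exact mul_assoc _ _ _

theorem rm_one (z : HV n) : rm z 1 = z := by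
  ext1 i
  exact mul_one _

theorem rm_zero (z : HV n) : rm z 0 = 0 := by
  ext1 i
  exact mul_zero _

theorem zero_rm (q : Quaternion ℝ) : rm (0 : HV n) q = 0 := by
  ext1 i
  exact zero_mul _

theorem rm_add_left (z w : HV n) (q : Quaternion ℝ) : rm (z + w) q = rm z q + rm w q := by
  ext1 i
  exact add_mul _ _ _

theorem rm_add_right (z : HV n) (p q : Quaternion ℝ) : rm z (p + q) = rm z p + rm z q := by
  ext1 i
  exact mul_add _ _ _

theorem rm_sub_right (z : HV n) (p q : Quaternion ℝ) : rm z (p - q) = rm z p - rm z q := by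
  ext1 i
  exact mul_sub _ _ _

theorem rm_sub_left (z w : HV n) (q : Quaternion ℝ) : rm (z - w) q = rm z q - rm w q := by
  ext1 i
  exact sub_mul _ _ _

theorem rm_smul_left (r : ℝ) (z : HV n) (q : Quaternion ℝ) : rm (r • z) q = r • rm z q := by
  ext1 i
  exact smul_mul_assoc r (z i) q

theorem rm_smul_right (r : ℝ) (z : HV n) (q : Quaternion ℝ) : rm z (r • q) = r • rm z q := by
  ext1 i
  exact mul_smul_comm r (z i) q

theorem rm_coe (z : HV n) (r : ℝ) : rm z (r : Quaternion ℝ) = r • z := by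
  ext1 i
  exact mul_coe_eq_smul _ _

theorem norm_rm (z : HV n) (q : Quaternion ℝ) : ‖rm z q‖ = ‖z‖ * ‖q‖ := by
  have h1 : ‖rm z q‖ ^ 2 = (‖z‖ * ‖q‖) ^ 2 := by
    rw [PiLp.norm_sq_eq_of_L2, mul_pow, PiLp.norm_sq_eq_of_L2, Finset.sum_mul]
    refine Finset.sum_congr rfl fun i _ => ?_
    rw [rm_apply, norm_mul, mul_pow]
  exact (sq_eq_sq₀ (norm_nonneg _) (by positivity)).1 h1

theorem norm_hp_le (z w : HV n) : ‖hp z w‖ ≤ ‖z‖ * ‖w‖ := by
  have h1 : ‖hp z w‖ ≤ ∑ i, ‖z i‖ * ‖w i‖ := by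
    unfold hp
    refine (norm_sum_le _ _).trans (le_of_eq ?_)
    refine Finset.sum_congr rfl fun i _ => ?_
    rw [norm_mul, norm_star]
  refine h1.trans ?_
  have h2 := Real.sum_mul_le_sqrt_mul_sqrt Finset.univ (fun i => ‖z i‖) (fun i => ‖w i‖)
  rw [← PiLp.norm_sq_eq_of_L2, ← PiLp.norm_sq_eq_of_L2, Real.sqrt_sq (norm_nonneg _),
    Real.sqrt_sq (norm_nonneg _)] at h2
  exact h2

theorem continuous_hp : Continuous fun q : HV n × HV n => hp q.1 q.2 := by
  unfold hp
  refine continuous_finsetSum _ fun i _ => ?_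
  have h1 : Continuous fun q : HV n × HV n => q.1 i :=
    (PiLp.continuous_apply 2 _ i).comp continuous_fst
  have h2 : Continuous fun q : HV n × HV n => q.2 i :=
    (PiLp.continuous_apply 2 _ i).comp continuous_snd
  exact h1.star.mul h2

theorem continuous_rm : Continuous fun q : HV n × Quaternion ℝ => rm q.1 q.2 := by
  unfold rm
  refine (PiLp.continuous_toLp 2 _).comp (continuous_pi fun i => ?_)
  have h1 : Continuous fun q : HV n × Quaternion ℝ => q.1 i :=
    (PiLp.continuous_apply 2 _ i).comp continuous_fst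
  exact h1.mul continuous_snd

/-! ### the distance -/

/-- the Fubini-Study distance of the quaternionic lines spanned by two unit vectors -/
def fs (z w : HV n) : ℝ := Real.arccos ‖hp z w‖

theorem fs_comm (z w : HV n) : fs z w = fs w z := by
  unfold fs
  rw [norm_hp_comm]

theorem fs_nonneg (z w : HV n) : 0 ≤ fs z w := Real.arccos_nonneg _

theorem fs_le (z w : HV n) : fs z w ≤ Real.pi / 2 := by
  unfold fs
  rw [Real.arccos_le_pi_div_two]
  exact norm_nonneg _

theorem norm_hp_le_one {z w : HV n} (hz : ‖z‖ = 1) (hw : ‖w‖ = 1) : ‖hp z w‖ ≤ 1 := by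
  have := norm_hp_le z w
  rwa [hz, hw, one_mul] at this

theorem cos_fs {z w : HV n} (hz : ‖z‖ = 1) (hw : ‖w‖ = 1) :
    Real.cos (fs z w) = ‖hp z w‖ :=
  Real.cos_arccos (by linarith [norm_nonneg (hp z w)]) (norm_hp_le_one hz hw)

/-- the projection orthogonal to the line of `z` -/
def Qp (z w : HV n) : HV n := w - rm z (hp z w)

theorem Qp_self {z : HV n} (hz : ‖z‖ = 1) : Qp z z = 0 := by
  unfold Qp
  rw [hp_unit hz, rm_one, sub_self]

theorem Qp_sub (z w w' : HV n) : Qp z (w - w') = Qp z w - Qp z w' := by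
  unfold Qp
  rw [hp_sub_right, rm_sub_right]
  abel

theorem Qp_smul (z w : HV n) (r : ℝ) : Qp z (r • w) = r • Qp z w := by
  unfold Qp
  rw [hp_smul_right, rm_smul_right, smul_sub]

theorem hp_Qp {z : HV n} (hz : ‖z‖ = 1) (w : HV n) : hp z (Qp z w) = 0 := by
  unfold Qp
  rw [hp_sub_right, hp_rm_right, hp_unit hz, one_mul, sub_self]

theorem hp_Qp_left {z : HV n} (hz : ‖z‖ = 1) (w : HV n) : hp (Qp z w) z = 0 := by
  rw [← star_hp, hp_Qp hz, star_zero]

theorem norm_Qp_sq {z : HV n} (hz : ‖z‖ = 1) (w : HV n) :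
    ‖Qp z w‖ ^ 2 = ‖w‖ ^ 2 - ‖hp z w‖ ^ 2 := by
  have h2 : w = Qp z w + rm z (hp z w) := by
    unfold Qp
    abel
  have h3 : (inner ℝ (Qp z w) (rm z (hp z w)) : ℝ) = 0 := by
    rw [← hp_re, hp_rm_right, hp_Qp_left hz, zero_mul]
    rfl
  have h4 := norm_add_sq_eq_norm_sq_add_norm_sq_of_inner_eq_zero _ _ h3
  rw [← h2, norm_rm, hz, one_mul] at h4
  nlinarith only [h4]

theorem sin_fs {z w : HV n} (hz : ‖z‖ = 1) (hw : ‖w‖ = 1) : Real.sin (fs z w) = ‖Qp z w‖ := by
  have h1 : Real.sin (fs z w) = √(1 - ‖hp z w‖ ^ 2) := Real.sin_arccos _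
  rw [h1]
  have h2 := norm_Qp_sq hz w
  rw [hw, one_pow] at h2
  rw [← h2, Real.sqrt_sq (norm_nonneg _)]

theorem fs_self {z : HV n} (hz : ‖z‖ = 1) : fs z z = 0 := by
  unfold fs
  rw [hp_unit hz]
  simp

/-- the triangle inequality -/
theorem fs_triangle {x y z : HV n} (hx : ‖x‖ = 1) (hy : ‖y‖ = 1) (hz : ‖z‖ = 1) :
    fs x z ≤ fs x y + fs y z := by
  have h1 : hp x z = hp x y * hp y z + hp (Qp y x) (Qp y z) := by
    have e1 : hp (Qp y x) (Qp y z) = hp x (Qp y z) - star (hp y x) * hp y (Qp y z) := by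
      conv_lhs => rw [Qp]
      rw [hp_sub_left, hp_rm_left]
    rw [e1, hp_Qp hy, mul_zero, sub_zero]
    unfold Qp
    rw [hp_sub_right, hp_rm_right]
    abel
  have h2 : Real.cos (fs x y + fs y z) ≤ ‖hp x z‖ := by
    rw [Real.cos_add, cos_fs hx hy, cos_fs hy hz, fs_comm x y, sin_fs hy hx, sin_fs hy hz, h1]
    have h3 := norm_sub_le_norm_add (hp x y * hp y z) (hp (Qp y x) (Qp y z))
    have h4 := norm_hp_le (Qp y x) (Qp y z)
    rw [norm_mul] at h3
    linarith
  have h3 : 0 ≤ fs x y + fs y z := add_nonneg (fs_nonneg _ _) (fs_nonneg _ _)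
  have h4 : fs x y + fs y z ≤ Real.pi := by
    have := fs_le x y
    have := fs_le y z
    linarith
  calc fs x z = Real.arccos ‖hp x z‖ := rfl
    _ ≤ Real.arccos (Real.cos (fs x y + fs y z)) := Real.arccos_le_arccos h2
    _ = fs x y + fs y z := Real.arccos_cos h3 h4

/-- multiplication by a unit quaternion does not change the distance -/
theorem fs_rm_left (z w : HV n) {q : Quaternion ℝ} (hq : ‖q‖ = 1) : fs (rm z q) w = fs z w := by
  unfold fs
  rw [hp_rm_left, norm_mul, norm_star, hq, one_mul]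

theorem fs_rm_right (z w : HV n) {q : Quaternion ℝ} (hq : ‖q‖ = 1) : fs z (rm w q) = fs z w := by
  rw [fs_comm, fs_rm_left _ _ hq, fs_comm]

theorem fs_eq_zero {z w : HV n} (hz : ‖z‖ = 1) (hw : ‖w‖ = 1) (h : fs z w = 0) :
    w = rm z (hp z w) ∧ ‖hp z w‖ = 1 := by
  have h1 := sin_fs hz hw
  have h2 := cos_fs hz hw
  rw [h, Real.sin_zero] at h1
  rw [h, Real.cos_zero] at h2
  exact ⟨sub_eq_zero.1 (norm_eq_zero.1 h1.symm), h2.symm⟩

theorem continuous_hp_right (z : HV n) : Continuous fun w : HV n => hp z w := by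
  unfold hp
  exact continuous_finsetSum _ fun i _ => continuous_const.mul (PiLp.continuous_apply 2 _ i)

theorem continuous_Qp (z : HV n) : Continuous fun w : HV n => Qp z w := by
  unfold Qp rm
  refine continuous_id.sub ((PiLp.continuous_toLp 2 _).comp (continuous_pi fun i => ?_))
  exact continuous_const.mul (continuous_hp_right z)

/-- the metric derivative -/
theorem tendsto_Qp {z : ℝ → HV n} {t : ℝ} {z' : HV n} (hzt : ‖z t‖ = 1)
    (hd : HasDerivAt z z' t) :
    Tendsto (fun s => ‖Qp (z t) (z s)‖ / |s - t|) (𝓝[≠] t) (𝓝 ‖Qp (z t) z'‖) := by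
  have hc : Continuous fun w : HV n => ‖Qp (z t) w‖ := (continuous_Qp (z t)).norm
  have h1 := (hc.tendsto z').comp (hasDerivAt_iff_tendsto_slope.1 hd)
  refine h1.congr' ?_
  filter_upwards [self_mem_nhdsWithin] with s hs
  have hs' : s - t ≠ 0 := sub_ne_zero.2 hs
  show ‖Qp (z t) (slope z t s)‖ = _
  rw [slope_def_module, Qp_smul, Qp_sub, Qp_self hzt, sub_zero, norm_smul, norm_inv,
    Real.norm_eq_abs, inv_mul_eq_div]

theorem fs_le_of_deriv {z : ℝ → HV n} {t : ℝ} {z' : HV n} (hz : ∀ᶠ s in 𝓝 t, ‖z s‖ = 1)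
    (hd : HasDerivAt z z' t) {C : ℝ} (hC : ‖Qp (z t) z'‖ < C) :
    ∀ᶠ s in 𝓝[≠] t, fs (z t) (z s) ≤ C * |s - t| := by
  have hzt : ‖z t‖ = 1 := hz.self_of_nhds
  have h1 := tendsto_Qp hzt hd
  have h2 : Tendsto (fun s => ‖hp (z t) (z s)‖) (𝓝[≠] t) (𝓝 1) := by
    have h3 : ContinuousAt (fun s => ‖hp (z t) (z s)‖) t := by
      have h5 : Continuous fun w : HV n => ‖hp (z t) w‖ := (continuous_hp_right (z t)).norm
      exact h5.continuousAt.comp hd.continuousAt
    have h4 := h3.tendsto.mono_left (nhdsWithin_le_nhds (s := {t}ᶜ))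
    rw [hp_unit hzt, norm_one] at h4
    exact h4
  have h3 := h1.div h2 one_ne_zero
  rw [div_one] at h3
  filter_upwards [h3.eventually_lt_const hC, h2.eventually_const_lt one_half_lt_one,
    nhdsWithin_le_nhds hz, self_mem_nhdsWithin] with s h4 h5 h6 h7
  have hs : 0 < |s - t| := abs_pos.2 (sub_ne_zero.2 h7)
  have hcos : 0 < Real.cos (fs (z t) (z s)) := by
    rw [cos_fs hzt h6]
    linarith
  have hlt : fs (z t) (z s) < Real.pi / 2 := by
    refine lt_of_le_of_ne (fs_le _ _) fun h => ?_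
    rw [h, Real.cos_pi_div_two] at hcos
    exact lt_irrefl _ hcos
  have h8 := Real.le_tan (fs_nonneg (z t) (z s)) hlt
  rw [Real.tan_eq_sin_div_cos, sin_fs hzt h6, cos_fs hzt h6] at h8
  refine h8.trans ?_
  have h9 : ‖Qp (z t) (z s)‖ / ‖hp (z t) (z s)‖ =
      ‖Qp (z t) (z s)‖ / |s - t| / ‖hp (z t) (z s)‖ * |s - t| := by
    field_simp
  rw [h9]
  exact mul_le_mul_of_nonneg_right h4.le hs.le

/-- if the distance between nearby points of the curve is the parameter distance, the orthogonal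
part of the derivative is a unit vector -/
theorem norm_Qp_eq_one {z : ℝ → HV n} {t : ℝ} {z' : HV n} (hz : ∀ᶠ s in 𝓝 t, ‖z s‖ = 1)
    (hd : HasDerivAt z z' t) (h : ∀ᶠ s in 𝓝 t, fs (z t) (z s) = |s - t|) :
    ‖Qp (z t) z'‖ = 1 := by
  have hzt : ‖z t‖ = 1 := hz.self_of_nhds
  have h1 := tendsto_Qp hzt hd
  have h2 : Tendsto (fun s : ℝ => |slope Real.sin 0 (s - t)|) (𝓝[≠] t) (𝓝 1) := by
    have h3 := (hasDerivAt_iff_tendsto_slope.1 (Real.hasDerivAt_sin 0)).abs
    rw [Real.cos_zero, abs_one] at h3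
    refine h3.comp ?_
    refine tendsto_nhdsWithin_iff.2 ⟨?_, ?_⟩
    · have h4 : Tendsto (fun s : ℝ => s - t) (𝓝 t) (𝓝 (t - t)) :=
        (continuous_id.sub continuous_const).tendsto t
      rw [sub_self] at h4
      exact h4.mono_left nhdsWithin_le_nhds
    · filter_upwards [self_mem_nhdsWithin] with s hs
      exact sub_ne_zero.2 hs
  refine tendsto_nhds_unique h1 (h2.congr' ?_)
  filter_upwards [nhdsWithin_le_nhds hz, nhdsWithin_le_nhds h, self_mem_nhdsWithin] with s h3 h4 h5
  rw [← sin_fs hzt h3, h4, slope_def_field, Real.sin_zero, sub_zero, sub_zero, abs_div]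
  congr 1
  rcases abs_cases (s - t) with h6 | h6
  · rw [h6.1]
    refine abs_of_nonneg (Real.sin_nonneg_of_nonneg_of_le_pi h6.2 ?_)
    have h7 := fs_le (z t) (z s)
    rw [h4, h6.1] at h7
    linarith [Real.pi_pos]
  · rw [h6.1, Real.sin_neg]
    refine abs_of_nonpos (Real.sin_nonpos_of_nonpos_of_neg_pi_le h6.2.le ?_)
    have h7 := fs_le (z t) (z s)
    rw [h4, h6.1] at h7
    linarith [Real.pi_pos]

end

end Vale.Agent.P231.QF
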