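import Vale.Agent.P231.QF.QF1
import Mathlib.Analysis.SpecialFunctions.Trigonometric.Sinc
import Mathlib.Analysis.Calculus.Deriv.Abs

/-! Geodesic polar coordinates of the quaternionic projective space. -/

set_option maxSynthPendingDepth 3
set_option linter.unusedSectionVars false

open Set Filter Quaternion
open scoped Topology

namespace Vale.Agent.P231.QF

noncomputable section

variable {n : ℕ}

/-- the first basis vector -/
def e0 (n : ℕ) : HV (n + 1) := WithLp.toLp 2 (Fin.cons 1 fun _ => 0)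

/-- the embedding of the orthogonal complement -/
def ioL (n : ℕ) : HV n →ₗ[ℝ] HV (n + 1) where
  toFun v := WithLp.toLp 2 (Fin.cons 0 fun i => v i)
  map_add' v w := by
    ext1 i
    refine Fin.cases ?_ (fun j => ?_) i
    · exact (add_zero (0 : Quaternion ℝ)).symm
    · rfl
  map_smul' c v := by
    ext1 i
    refine Fin.cases ?_ (fun j => ?_) i
    · exact (smul_zero c).symm
    · rfl

/-- the embedding of the orthogonal complement -/
def io (n : ℕ) : HV n →L[ℝ] HV (n + 1) := LinearMap.toContinuousLinearMap (ioL n)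

theorem e0_zero : e0 n 0 = 1 := rfl

theorem e0_succ (i : Fin n) : e0 n i.succ = 0 := rfl

theorem io_zero (v : HV n) : io n v 0 = 0 := rfl

theorem io_succ (v : HV n) (i : Fin n) : io n v i.succ = v i := rfl

theorem hp_e0 (z : HV (n + 1)) : hp (e0 n) z = z 0 := by
  unfold hp
  rw [Fin.sum_univ_succ, e0_zero, star_one, one_mul]
  simp [e0_succ]

theorem hp_e0_e0 : hp (e0 n) (e0 n) = 1 := by rw [hp_e0, e0_zero]

theorem hp_e0_io (v : HV n) : hp (e0 n) (io n v) = 0 := by rw [hp_e0, io_zero]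

theorem hp_io_e0 (v : HV n) : hp (io n v) (e0 n) = 0 := by
  rw [← star_hp, hp_e0_io, star_zero]

theorem hp_io_io (v w : HV n) : hp (io n v) (io n w) = hp v w := by
  unfold hp
  rw [Fin.sum_univ_succ, io_zero, io_zero, mul_zero, zero_add]
  rfl

theorem norm_e0 : ‖e0 n‖ = 1 := by
  have h1 := hp_self (e0 n)
  rw [hp_e0_e0] at h1
  have h2 := congrArg (fun q : Quaternion ℝ => q.re) h1
  simp only [re_one, re_coe] at h2
  exact (pow_eq_one_iff_of_nonneg (norm_nonneg _) two_ne_zero).1 h2.symm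

theorem norm_io (v : HV n) : ‖io n v‖ = ‖v‖ := by
  have h1 := hp_io_io v v
  rw [hp_self, hp_self] at h1
  have h2 := congrArg (fun q : Quaternion ℝ => q.re) h1
  simp only [re_coe] at h2
  exact (sq_eq_sq₀ (norm_nonneg _) (norm_nonneg _)).1 h2

theorem inner_io (v w : HV n) : (inner ℝ (io n v) (io n w) : ℝ) = inner ℝ v w := by
  rw [← hp_re, ← hp_re, hp_io_io]

theorem inner_e0_io (v : HV n) : (inner ℝ (e0 n) (io n v) : ℝ) = 0 := by
  rw [← hp_re, hp_e0_io]
  rfl

theorem io_rm (v : HV n) (q : Quaternion ℝ) : io n (rm v q) = rm (io n v) q := by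
  ext1 i
  refine Fin.cases ?_ (fun j => ?_) i
  · exact (zero_mul q).symm
  · rfl

theorem io_inj {v w : HV n} (h : io n v = io n w) : v = w := by
  ext1 i
  have h1 := congrArg (fun z : HV (n + 1) => z i.succ) h
  exact h1

/-- decomposition -/
theorem dec (z : HV (n + 1)) : ∃ (α : Quaternion ℝ) (v : HV n), z = rm (e0 n) α + io n v := by
  refine ⟨z 0, WithLp.toLp 2 fun i => z i.succ, ?_⟩
  ext1 i
  refine Fin.cases ?_ (fun j => ?_) i
  · show z 0 = 1 * z 0 + 0
    rw [one_mul, add_zero]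
  · show z j.succ = 0 * z 0 + z j.succ
    rw [zero_mul, zero_add]

/-- the unit vector `cos(c‖v‖) e₀ + sin(c‖v‖) v/‖v‖` -/
def S (c : ℝ) (v : HV n) : HV (n + 1) :=
  Real.cos (c * ‖v‖) • e0 n + (c * Real.sinc (c * ‖v‖)) • io n v

theorem continuous_S (c : ℝ) : Continuous fun v : HV n => S c v := by
  unfold S
  have h1 := Real.continuous_sinc
  have h2 := Real.continuous_cos
  exact ((h2.comp (continuous_const.mul continuous_norm)).smul continuous_const).add
    ((continuous_const.mul (h1.comp (continuous_const.mul continuous_norm))).smul (io n).continuous)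

/-- the norm of a sum -/
theorem norm_sq_real (a : ℝ) (v : HV n) : ‖a • e0 n + io n v‖ ^ 2 = a ^ 2 + ‖v‖ ^ 2 := by
  have h1 : (inner ℝ (a • e0 n) (io n v) : ℝ) = 0 := by
    rw [inner_smul_left, inner_e0_io, mul_zero]
  have h2 := norm_add_sq_eq_norm_sq_add_norm_sq_of_inner_eq_zero _ _ h1
  rw [norm_smul, norm_e0, mul_one, norm_io, Real.norm_eq_abs] at h2
  rw [← sq_abs a]
  nlinarith only [h2]

theorem norm_S {c : ℝ} (hc : c ≠ 0) (v : HV n) : ‖S c v‖ = 1 := by
  have h1 : ‖S c v‖ ^ 2 = 1 := by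
    unfold S
    rw [← map_smul, norm_sq_real, norm_smul, mul_pow, Real.norm_eq_abs, sq_abs]
    have h4 : (c * Real.sinc (c * ‖v‖)) ^ 2 * ‖v‖ ^ 2 = Real.sin (c * ‖v‖) ^ 2 := by
      rcases eq_or_ne v 0 with rfl | hv
      · simp
      · have h5 : c * ‖v‖ ≠ 0 := mul_ne_zero hc (norm_ne_zero_iff.2 hv)
        rw [Real.sinc_of_ne_zero h5]
        field_simp
    rw [h4, Real.cos_sq_add_sin_sq]
  exact (pow_eq_one_iff_of_nonneg (norm_nonneg _) two_ne_zero).1 h1

/-- polar form -/
theorem S_polar {c : ℝ} (hc : c ≠ 0) {u : HV n} (hu : ‖u‖ = 1) {r : ℝ} (hr : 0 < r) :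
    S c (r • u) = Real.cos (c * r) • e0 n + Real.sin (c * r) • io n u := by
  unfold S
  have h1 : ‖r • u‖ = r := by rw [norm_smul, hu, mul_one, Real.norm_of_nonneg hr.le]
  rw [h1, Real.sinc_of_ne_zero (mul_ne_zero hc hr.ne'), map_smul, smul_smul]
  congr 2
  field_simp

/-- the orthogonal part of the derivative -/
theorem norm_Qp_polar {u w : HV n} (hu : ‖u‖ = 1) (huw : inner ℝ u w = (0 : ℝ)) (θ m k : ℝ) :
    ‖Qp (Real.cos θ • e0 n + Real.sin θ • io n u)
      ((-(m * Real.sin θ)) • e0 n + (m * Real.cos θ) • io n u + k • io n w)‖ ^ 2 =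
      m ^ 2 + k ^ 2 * (‖w‖ ^ 2 - Real.sin θ ^ 2 * ‖hp u w‖ ^ 2) := by
  have hcs := Real.cos_sq_add_sin_sq θ
  have hz : ‖Real.cos θ • e0 n + Real.sin θ • io n u‖ = 1 := by
    have h1 : ‖Real.cos θ • e0 n + Real.sin θ • io n u‖ ^ 2 = 1 := by
      rw [← map_smul, norm_sq_real, norm_smul, hu, mul_one, Real.norm_eq_abs, sq_abs, hcs]
    exact (pow_eq_one_iff_of_nonneg (norm_nonneg _) two_ne_zero).1 h1
  rw [norm_Qp_sq hz]
  have h1 : hp (Real.cos θ • e0 n + Real.sin θ • io n u)
      ((-(m * Real.sin θ)) • e0 n + (m * Real.cos θ) • io n u + k • io n w) =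
      (k * Real.sin θ) • hp u w := by
    simp only [hp_add_left, hp_add_right, hp_smul_left, hp_smul_right, hp_e0_e0, hp_e0_io,
      hp_io_e0, hp_io_io, hp_unit hu, smul_zero, add_zero, zero_add]
    module
  have h2 : ‖(-(m * Real.sin θ)) • e0 n + (m * Real.cos θ) • io n u + k • io n w‖ ^ 2 =
      m ^ 2 + k ^ 2 * ‖w‖ ^ 2 := by
    have h3 : (inner ℝ ((m * Real.cos θ) • u) (k • w) : ℝ) = 0 := by
      rw [inner_smul_left, inner_smul_right, huw]
      simp
    have h4 := norm_add_sq_eq_norm_sq_add_norm_sq_of_inner_eq_zero _ _ h3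
    rw [← pow_two, ← pow_two, ← pow_two] at h4
    rw [add_assoc, ← map_smul, ← map_smul, ← map_add, norm_sq_real, h4, norm_smul, norm_smul, hu,
      mul_one, mul_pow, Real.norm_eq_abs, Real.norm_eq_abs, sq_abs, sq_abs]
    linear_combination m ^ 2 * hcs
  rw [h1, h2, norm_smul, mul_pow, Real.norm_eq_abs, sq_abs]
  ring

/-- the derivative of `S` along a curve -/
theorem deriv_S {c : ℝ} (hc : c ≠ 0) {η : ℝ → HV n} {t : ℝ} {η' : HV n} (hη : HasDerivAt η η' t)
    {r : ℝ} (hr : ‖η t‖ = r) (hr0 : 0 < r) {u : HV n} (hu : η t = r • u) {a : ℝ}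
    (ha : inner ℝ u η' = a) :
    ∃ z' : HV (n + 1), HasDerivAt (fun s => S c (η s)) z' t ∧
      ‖Qp (S c (η t)) z'‖ ^ 2 = (c * a) ^ 2 + (Real.sin (c * r) / r) ^ 2 *
        (‖η' - a • u‖ ^ 2 - Real.sin (c * r) ^ 2 * ‖hp u (η' - a • u)‖ ^ 2) := by
  have hu1 : ‖u‖ = 1 := by
    rw [hu, norm_smul, Real.norm_of_nonneg hr0.le] at hr
    exact mul_left_cancel₀ hr0.ne' (hr.trans (mul_one r).symm)
  have huu : (inner ℝ u u : ℝ) = 1 := by rw [real_inner_self_eq_norm_sq, hu1, one_pow]
  have huw : inner ℝ u (η' - a • u) = (0 : ℝ) := by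
    rw [inner_sub_right, inner_smul_right, huu, ha]
    ring
  have hnorm : HasDerivAt (fun s => ‖η s‖) a t := by
    have h1 := (hη.norm_sq).sqrt (by
      rw [hr]
      positivity)
    have h2 : (fun s => √(‖η s‖ ^ 2)) = fun s => ‖η s‖ :=
      funext fun s => Real.sqrt_sq (norm_nonneg _)
    rw [h2, hr, Real.sqrt_sq hr0.le, hu, inner_smul_left, ha] at h1
    have h3 : 2 * ((starRingEnd ℝ) r * a) / (2 * r) = a := by
      rw [RCLike.conj_to_real]
      field_simp
    rw [h3] at h1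
    exact h1
  have hcos : HasDerivAt (fun s => Real.cos (c * ‖η s‖)) (-Real.sin (c * r) * (c * a)) t := by
    have h1 := (hnorm.const_mul c).cos
    rw [hr] at h1
    exact h1
  have hsin : HasDerivAt (fun s => Real.sin (c * ‖η s‖)) (Real.cos (c * r) * (c * a)) t := by
    have h1 := (hnorm.const_mul c).sin
    rw [hr] at h1
    exact h1
  have hquo : HasDerivAt (fun s => Real.sin (c * ‖η s‖) / ‖η s‖)
      ((Real.cos (c * r) * (c * a) * r - Real.sin (c * r) * a) / r ^ 2) t := by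
    have h1 := hsin.div hnorm (by rw [hr]; exact hr0.ne')
    rw [hr] at h1
    exact h1
  have hS : (fun s => S c (η s)) =ᶠ[𝓝 t] fun s =>
      Real.cos (c * ‖η s‖) • e0 n + (Real.sin (c * ‖η s‖) / ‖η s‖) • io n (η s) := by
    have h1 : ∀ᶠ s in 𝓝 t, η s ≠ 0 := by
      refine hη.continuousAt.eventually_ne ?_
      rw [← norm_ne_zero_iff, hr]
      exact hr0.ne'
    filter_upwards [h1] with s hs
    have h2 : ‖η s‖ ≠ 0 := norm_ne_zero_iff.2 hs
    unfold S
    rw [Real.sinc_of_ne_zero (mul_ne_zero hc h2)]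
    congr 2
    field_simp
  have hd := ((hcos.smul_const (e0 n)).add
    (hquo.smul ((io n).hasFDerivAt.comp_hasDerivAt t hη))).congr_of_eventuallyEq hS
  refine ⟨_, hd, ?_⟩
  have h1 : S c (η t) = Real.cos (c * r) • e0 n + Real.sin (c * r) • io n u := by
    rw [hu]
    exact S_polar hc hu1 hr0
  rw [h1, ← norm_Qp_polar hu1 huw (c * r) (c * a) (Real.sin (c * r) / r)]
  congr 3
  have h2 : io n (η t) = r • io n u := by rw [hu, map_smul]
  have h3 : io n (η' - a • u) = io n η' - a • io n u := by rw [map_sub, map_smul]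
  simp only [Function.comp_apply, hr, h2, h3]
  have hr' := hr0.ne'
  match_scalars
  · ring
  · field_simp
  · field_simp
    ring

end

end Vale.Agent.P231.QF
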