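import Vale.Agent.P231.QF.QF2
import Vale.Agent.P231.H512.FS3

/-! The inverse of the polar coordinates of the quaternionic projective space. -/

set_option maxSynthPendingDepth 3
set_option linter.unusedSectionVars false

open Set Filter Quaternion
open scoped Topology

namespace Vale.Agent.P231.QF

noncomputable section

variable {n : ℕ}

theorem norm_sq_dec (α : Quaternion ℝ) (y : HV n) :
    ‖rm (e0 n) α + io n y‖ ^ 2 = ‖α‖ ^ 2 + ‖y‖ ^ 2 := by
  have h1 : (inner ℝ (rm (e0 n) α) (io n y) : ℝ) = 0 := by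
    rw [← hp_re, hp_rm_left, hp_e0_io, mul_zero]
    rfl
  have h2 := norm_add_sq_eq_norm_sq_add_norm_sq_of_inner_eq_zero _ _ h1
  rw [norm_rm, norm_e0, one_mul, norm_io] at h2
  nlinarith only [h2]

theorem hp_e0_S (c : ℝ) (v : HV n) :
    hp (e0 n) (S c v) = ((Real.cos (c * ‖v‖) : ℝ) : Quaternion ℝ) := by
  unfold S
  rw [hp_add_right, hp_smul_right, hp_smul_right, hp_e0_e0, hp_e0_io, smul_zero, add_zero,
    ← coe_one, smul_coe, mul_one]

theorem norm_hp_e0_S (c : ℝ) (v : HV n) : ‖hp (e0 n) (S c v)‖ = |Real.cos (c * ‖v‖)| := by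
  rw [hp_e0_S, norm_coe, Real.norm_eq_abs]

theorem star_mul_self_norm (α : Quaternion ℝ) : star α * α = ((‖α‖ ^ 2 : ℝ) : Quaternion ℝ) := by
  rw [Quaternion.star_mul_self, Quaternion.normSq_eq_norm_mul_self, pow_two]

theorem self_mul_star_norm (α : Quaternion ℝ) : α * star α = ((‖α‖ ^ 2 : ℝ) : Quaternion ℝ) := by
  rw [Quaternion.self_mul_star, Quaternion.normSq_eq_norm_mul_self, pow_two]

/-- the logarithm -/
theorem S_log {c : ℝ} (hc : 0 < c) {α : Quaternion ℝ} {y : HV n} (hα : α ≠ 0) (hy : y ≠ 0)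
    (h1 : ‖α‖ ^ 2 + ‖y‖ ^ 2 = 1) :
    ‖FS.lg c (‖α‖ ^ 2) • rm y (star α)‖ = Real.arccos ‖α‖ / c ∧
    S c (FS.lg c (‖α‖ ^ 2) • rm y (star α)) =
      rm (rm (e0 n) α + io n y) (‖α‖⁻¹ • star α) := by
  have hα0 : 0 < ‖α‖ := norm_pos_iff.2 hα
  have hy0 : 0 < ‖y‖ := norm_pos_iff.2 hy
  have hα1 : ‖α‖ < 1 := by nlinarith
  have hs : √(‖α‖ ^ 2) = ‖α‖ := Real.sqrt_sq hα0.le
  have hs' : √(1 - ‖α‖ ^ 2) = ‖y‖ := by
    rw [← h1, add_sub_cancel_left, Real.sqrt_sq hy0.le]
  set θ := Real.arccos ‖α‖ with hθ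
  have hθ0 : 0 < θ := Real.arccos_pos.2 hα1
  have hcos : Real.cos θ = ‖α‖ := Real.cos_arccos (by linarith) hα1.le
  have hsin : Real.sin θ = ‖y‖ := by
    rw [hθ, Real.sin_arccos, hs']
  have hn : ‖rm y (star α)‖ = ‖α‖ * ‖y‖ := by rw [norm_rm, norm_star, mul_comm]
  have hl : FS.lg c (‖α‖ ^ 2) = θ / (c * (‖α‖ * ‖y‖)) := by
    unfold FS.lg
    rw [hs, hs']
  have hu1 : ‖(‖α‖ * ‖y‖)⁻¹ • rm y (star α)‖ = 1 := by
    rw [norm_smul, hn, norm_inv, Real.norm_of_nonneg (by positivity), inv_mul_cancel₀]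
    positivity
  have hv : FS.lg c (‖α‖ ^ 2) • rm y (star α) =
      (θ / c) • ((‖α‖ * ‖y‖)⁻¹ • rm y (star α)) := by
    rw [hl, smul_smul]
    congr 1
    field_simp
  rw [hv]
  refine ⟨?_, ?_⟩
  · rw [norm_smul, hu1, mul_one, Real.norm_of_nonneg (by positivity)]
  · rw [S_polar hc.ne' hu1 (by positivity)]
    have h2 : c * (θ / c) = θ := by field_simp
    rw [h2, hcos, hsin, map_smul, io_rm, rm_smul_right, rm_add_left, rm_rm, self_mul_star_norm,
      rm_coe, smul_add, smul_smul, smul_smul]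
    congr 2
    · field_simp
    · field_simp

/-- every unit vector is, up to a unit quaternion, of the form `S v` with `‖v‖ ≤ π/(2c)` -/
theorem S_surj {c : ℝ} (hc : 0 < c) {z : HV (n + 1)} (hz : ‖z‖ = 1) :
    ∃ v : HV n, c * ‖v‖ ≤ Real.pi / 2 ∧ ∃ q : Quaternion ℝ, ‖q‖ = 1 ∧ S c v = rm z q := by
  obtain ⟨α, y, rfl⟩ := dec z
  have h1 := norm_sq_dec α y
  rw [hz, one_pow] at h1
  rcases eq_or_ne y 0 with rfl | hy
  · rw [norm_zero] at h1
    refine ⟨0, by rw [norm_zero, mul_zero]; positivity, star α, ?_, ?_⟩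
    · rw [norm_star]
      exact (pow_eq_one_iff_of_nonneg (norm_nonneg _) two_ne_zero).1 (by linarith)
    · have h3 : α * star α = 1 := by
        have : ‖α‖ ^ 2 = 1 := by linarith
        rw [self_mul_star_norm, this]
        simp
      rw [map_zero, add_zero, rm_rm, h3, rm_one]
      unfold S
      simp
  · rcases eq_or_ne α 0 with rfl | hα
    · have hy1 : ‖y‖ = 1 := by
        rw [norm_zero] at h1
        exact (pow_eq_one_iff_of_nonneg (norm_nonneg _) two_ne_zero).1 (by linarith)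
      refine ⟨(Real.pi / 2 / c) • y, ?_, 1, norm_one, ?_⟩
      · rw [norm_smul, hy1, mul_one, Real.norm_of_nonneg (by positivity)]
        have : c * (Real.pi / 2 / c) = Real.pi / 2 := by field_simp
        rw [this]
      · rw [S_polar hc.ne' hy1 (by positivity)]
        have : c * (Real.pi / 2 / c) = Real.pi / 2 := by field_simp
        rw [this, rm_zero, rm_one]
        simp
    · obtain ⟨h2, h3⟩ := S_log hc hα hy h1.symm
      refine ⟨_, ?_, _, ?_, h3⟩
      · rw [h2]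
        have : c * (Real.arccos ‖α‖ / c) = Real.arccos ‖α‖ := by field_simp
        rw [this, Real.arccos_le_pi_div_two]
        exact norm_nonneg _
      · rw [norm_smul, norm_inv, norm_norm, norm_star,
          inv_mul_cancel₀ (norm_ne_zero_iff.2 hα)]

end

end Vale.Agent.P231.QF
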