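import Vale.Agent.P231.QF.QT
import Vale.Agent.P231.QF.QF3

/-! P231: the map of a Blaschke manifold of model volume and cut multiplicity three to the
quaternionic projective space. -/

set_option maxSynthPendingDepth 3
set_option linter.unusedSectionVars false

open Bundle Manifold Set Filter Module
open scoped ContDiff Manifold Topology

namespace Vale.Agent.P231.QF

noncomputable section

open Vale.Agent.P234 Vale.Agent.P231 Vale.Agent.P231.H703 Vale.Agent.P231.H775
  Vale.Agent.P231.H512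

variable {E : Type*} [NormedAddCommGroup E] [NormedSpace ℝ E] [FiniteDimensional ℝ E]
  {M : Type*} [MetricSpace M] [ChartedSpace E M]
  [RiemannianBundle (fun x : M => TangentSpace 𝓘(ℝ, E) x)]
  [IsManifold 𝓘(ℝ, E) ∞ M]
  [IsContMDiffRiemannianBundle 𝓘(ℝ, E) ∞ E (fun x : M => TangentSpace 𝓘(ℝ, E) x)]
  {e : ∀ x : M, TangentSpace 𝓘(ℝ, E) x → M}
  [CompactSpace M] [ConnectedSpace M] [IsRiemannianManifold 𝓘(ℝ, E) M]

/-- the data of the comparison with the quaternionic projective space -/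
structure Mod (e : ∀ x : M, TangentSpace 𝓘(ℝ, E) x → M) (D : ℝ) (p : M) {n : ℕ}
    (T : TangentSpace 𝓘(ℝ, E) p ≃ₗᵢ[ℝ] HV n) : Prop where
  rig : Rig e D 3
  proj : ∃ P : ∀ _ : M, E → E →ₗ[ℝ] E, (∀ x, PData e D 3 x (P x)) ∧
    ∀ u w : TangentSpace 𝓘(ℝ, E) p, ‖u‖ = 1 →
      T ((inner ℝ u w : ℝ) • u + tof p (P p (u : E) (w : E))) = rm (T u) (hp (T u) (T w))

variable {D : ℝ} {p : M} {n : ℕ} {T : TangentSpace 𝓘(ℝ, E) p ≃ₗᵢ[ℝ] HV n}

/-- the constant -/
def cc (D : ℝ) : ℝ := Real.pi / (2 * D)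

theorem Mod.cpos (m : Mod e D p T) : 0 < cc D := by
  have := m.rig.pos
  unfold cc
  positivity

theorem Mod.ccD (m : Mod e D p T) : cc D * D = Real.pi / 2 := by
  have := m.rig.pos.ne'
  unfold cc
  field_simp

/-- the exponential map -/
def ee (e : ∀ x : M, TangentSpace 𝓘(ℝ, E) x → M) (T : TangentSpace 𝓘(ℝ, E) p ≃ₗᵢ[ℝ] HV n)
    (v : HV n) : M := e p (T.symm v)

/-- the logarithm -/
def ll (F : Facts e) (T : TangentSpace 𝓘(ℝ, E) p ≃ₗᵢ[ℝ] HV n) (x : M) : HV n := T (symmL F p x)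

theorem ee_ll (F : Facts e) (T : TangentSpace 𝓘(ℝ, E) p ≃ₗᵢ[ℝ] HV n) (x : M) :
    ee e T (ll F T x) = x := by
  unfold ee ll
  rw [T.symm_apply_apply]
  exact symmL_exp F p x

theorem norm_ll (F : Facts e) (T : TangentSpace 𝓘(ℝ, E) p ≃ₗᵢ[ℝ] HV n) (x : M) :
    ‖ll F T x‖ = dist p x := by
  unfold ll
  rw [T.norm_map]
  exact symmL_norm F p x

/-- the map -/
def ZZ (F : Facts e) (D : ℝ) (T : TangentSpace 𝓘(ℝ, E) p ≃ₗᵢ[ℝ] HV n) (x : M) : HV (n + 1) :=
  S (cc D) (ll F T x)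

theorem Mod.norm_ZZ (m : Mod e D p T) (x : M) : ‖ZZ m.rig.facts D T x‖ = 1 :=
  norm_S m.cpos.ne' _

theorem Mod.dist_ee (m : Mod e D p T) {v : HV n} (hv : ‖v‖ ≤ D) : dist p (ee e T v) = ‖v‖ := by
  have h1 : ‖T.symm v‖ = ‖v‖ := T.symm.norm_map v
  exact (m.rig.inj p (T.symm v) (h1.trans_le hv)).trans h1

theorem Mod.same (m : Mod e D p T) {u u' : HV n} (hu : ‖u‖ = 1)
    (hu' : ‖u'‖ = 1) : ee e T (D • u) = ee e T (D • u') ↔ u' = rm u (hp u u') := by
  obtain ⟨P, hP, hJ⟩ := m.proj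
  have e1 : ‖T.symm u‖ = 1 := (T.symm.norm_map u).trans hu
  have e2 : ‖T.symm u'‖ = 1 := (T.symm.norm_map u').trans hu'
  have h1 := same_point_iff m.rig.facts m.rig.pos m.rig.closed hP m.rig.symm p
    (u := (T.symm u : E)) (u' := (T.symm u' : E)) e1 e2
  have h2 := hJ (T.symm u) (T.symm u') e1
  rw [T.apply_symm_apply, T.apply_symm_apply] at h2
  have h3 : ee e T (D • u) = e p (D • (T.symm u : E) : E) := by
    unfold ee
    rw [map_smul]
  have h4 : ee e T (D • u') = e p (D • (T.symm u' : E) : E) := by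
    unfold ee
    rw [map_smul]
  rw [h3, h4]
  refine h1.trans ?_
  rw [← h2]
  constructor
  · intro h
    have h5 : T.symm u' = (inner ℝ (T.symm u) (T.symm u') : ℝ) • (T.symm u) +
        tof p (P p (T.symm u : E) (T.symm u' : E)) := h
    have h6 := congrArg T h5
    rwa [T.apply_symm_apply] at h6
  · intro h
    have h5 : T.symm u' = (inner ℝ (T.symm u) (T.symm u') : ℝ) • (T.symm u) +
        tof p (P p (T.symm u : E) (T.symm u' : E)) := by
      apply T.injective
      rw [T.apply_symm_apply]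
      exact h
    exact h5

theorem Mod.S_D (m : Mod e D p T) {v : HV n} (hv : ‖v‖ = D) :
    S (cc D) v = io n (D⁻¹ • v) := by
  have hD := m.rig.pos
  have h1 : ‖D⁻¹ • v‖ = 1 := by
    rw [norm_smul, hv, Real.norm_of_nonneg (inv_pos.2 hD).le, inv_mul_cancel₀ hD.ne']
  have h2 : v = D • (D⁻¹ • v) := by rw [smul_smul, mul_inv_cancel₀ hD.ne', one_smul]
  have h3 := S_polar m.cpos.ne' h1 hD
  rw [← h2, m.ccD, Real.cos_pi_div_two, Real.sin_pi_div_two, zero_smul, zero_add, one_smul] at h3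
  exact h3

theorem Mod.ll_of_lt (m : Mod e D p T) {v : HV n} (hv : ‖v‖ < D) :
    ll m.rig.facts T (ee e T v) = v := by
  have h1 : ‖T.symm v‖ < D := (T.symm.norm_map v).trans_lt hv
  have h2 : T.symm v ∈ injDomain e p := m.rig.inj.mem_injDomain h1
  have h3 : symmL m.rig.facts p (e p (T.symm v)) ∈ segMin e p := by
    show dist p (e p (symmL m.rig.facts p (e p (T.symm v)))) =
      ‖symmL m.rig.facts p (e p (T.symm v))‖
    rw [symmL_exp m.rig.facts, symmL_norm m.rig.facts]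
  have h4 := m.rig.facts.injDomain_unique h2 h3 (symmL_exp m.rig.facts p _)
  unfold ll ee
  rw [h4, T.apply_symm_apply]

theorem Mod.norm_ll_of_le (m : Mod e D p T) {v : HV n} (hv : ‖v‖ ≤ D) :
    ‖ll m.rig.facts T (ee e T v)‖ = ‖v‖ :=
  (norm_ll m.rig.facts T _).trans (m.dist_ee hv)

/-- `Z (exp v)` is `S v` up to a phase -/
theorem Mod.phase (m : Mod e D p T) {v : HV n} (hv : ‖v‖ ≤ D) :
    ∃ q : Quaternion ℝ, ‖q‖ = 1 ∧ ZZ m.rig.facts D T (ee e T v) = rm (S (cc D) v) q := by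
  have hD := m.rig.pos
  rcases hv.lt_or_eq with h | h
  · refine ⟨1, norm_one, ?_⟩
    unfold ZZ
    rw [m.ll_of_lt h, rm_one]
  · set v' := ll m.rig.facts T (ee e T v) with hv'
    have hn' : ‖v'‖ = D := (m.norm_ll_of_le hv).trans h
    have hu : ‖D⁻¹ • v‖ = 1 := by
      rw [norm_smul, h, Real.norm_of_nonneg (inv_pos.2 hD).le, inv_mul_cancel₀ hD.ne']
    have hu' : ‖D⁻¹ • v'‖ = 1 := by
      rw [norm_smul, hn', Real.norm_of_nonneg (inv_pos.2 hD).le, inv_mul_cancel₀ hD.ne']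
    have h1 : ee e T (D • (D⁻¹ • v)) = ee e T (D • (D⁻¹ • v')) := by
      rw [smul_smul, smul_smul, mul_inv_cancel₀ hD.ne', one_smul, one_smul, hv', ee_ll]
    have h2 := (m.same hu hu').1 h1
    set u := D⁻¹ • v
    set u' := D⁻¹ • v'
    refine ⟨hp u u', ?_, ?_⟩
    · have h4 := congrArg norm h2
      rwa [norm_rm, hu, hu', one_mul, eq_comm] at h4
    · show S (cc D) v' = _
      rw [m.S_D hn', m.S_D h, ← io_rm]
      exact congrArg _ h2

theorem Mod.fs_eq (m : Mod e D p T) {v w : HV n} (hv : ‖v‖ ≤ D)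
    (hw : ‖w‖ ≤ D) : fs (ZZ m.rig.facts D T (ee e T v)) (ZZ m.rig.facts D T (ee e T w)) =
      fs (S (cc D) v) (S (cc D) w) := by
  obtain ⟨μ, h1, h2⟩ := m.phase hv
  obtain ⟨ν, h3, h4⟩ := m.phase hw
  rw [h2, h4, fs_rm_left _ _ h1, fs_rm_right _ _ h3]

/-- the map separates points -/
theorem Mod.inj (m : Mod e D p T) {x y : M}
    (h : fs (ZZ m.rig.facts D T x) (ZZ m.rig.facts D T y) = 0) : x = y := by
  have hD := m.rig.pos
  have hc := m.cpos
  obtain ⟨h1, h2⟩ := fs_eq_zero (m.norm_ZZ x) (m.norm_ZZ y) h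
  set μ : Quaternion ℝ := hp (ZZ m.rig.facts D T x) (ZZ m.rig.facts D T y) with hμ
  set v := ll m.rig.facts T x with hv
  set w := ll m.rig.facts T y with hw
  have hvx : ee e T v = x := ee_ll m.rig.facts T x
  have hwy : ee e T w = y := ee_ll m.rig.facts T y
  have hvD : ‖v‖ ≤ D := (norm_ll m.rig.facts T x).trans_le (m.rig.diam _ _)
  have hwD : ‖w‖ ≤ D := (norm_ll m.rig.facts T y).trans_le (m.rig.diam _ _)
  have h3 : S (cc D) w = rm (S (cc D) v) μ := h1
  have hle : ∀ r : ℝ, 0 ≤ r → r ≤ D → 0 ≤ Real.cos (cc D * r) := fun r h0 h1 =>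
    Real.cos_nonneg_of_neg_pi_div_two_le_of_le (by
      have : 0 ≤ cc D * r := by positivity
      linarith [Real.pi_pos]) (by
      rw [← m.ccD]
      exact mul_le_mul_of_nonneg_left h1 hc.le)
  have h4 : ((Real.cos (cc D * ‖w‖) : ℝ) : Quaternion ℝ) =
      ((Real.cos (cc D * ‖v‖) : ℝ) : Quaternion ℝ) * μ := by
    rw [← hp_e0_S, ← hp_e0_S, h3, hp_rm_right]
  have h5 : Real.cos (cc D * ‖w‖) = Real.cos (cc D * ‖v‖) := by
    have h6 := congrArg norm h4
    rw [norm_mul, h2, mul_one, Quaternion.norm_coe, Quaternion.norm_coe,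
      Real.norm_of_nonneg (hle _ (norm_nonneg _) hwD),
      Real.norm_of_nonneg (hle _ (norm_nonneg _) hvD)] at h6
    exact h6
  have hmem : ∀ r : ℝ, 0 ≤ r → r ≤ D → cc D * r ∈ Icc 0 Real.pi := fun r h0 h1 =>
    ⟨by positivity, by
      have := mul_le_mul_of_nonneg_left h1 hc.le
      rw [m.ccD] at this
      linarith [Real.pi_pos]⟩
  have h6 : ‖w‖ = ‖v‖ := mul_left_cancel₀ hc.ne'
    (Real.injOn_cos (hmem _ (norm_nonneg _) hwD) (hmem _ (norm_nonneg _) hvD) h5)
  rcases hvD.lt_or_eq with h7 | h7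
  · have h8 : 0 < Real.cos (cc D * ‖v‖) := by
      refine Real.cos_pos_of_mem_Ioo ⟨?_, ?_⟩
      · have : 0 ≤ cc D * ‖v‖ := by positivity
        linarith [Real.pi_pos]
      · rw [← m.ccD]
        exact mul_lt_mul_of_pos_left h7 hc
    have h9 : μ = 1 := by
      rw [h5] at h4
      have h10 : ((Real.cos (cc D * ‖v‖) : ℝ) : Quaternion ℝ) ≠ 0 := by
        rw [← norm_pos_iff, Quaternion.norm_coe, Real.norm_of_nonneg h8.le]
        exact h8
      exact mul_left_cancel₀ h10 (h4.symm.trans (mul_one _).symm)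
    rw [h9, rm_one] at h3
    unfold S at h3
    rw [h6] at h3
    have h10 := add_left_cancel h3
    rcases eq_or_ne v 0 with h11 | h11
    · have h12 : w = 0 := norm_eq_zero.1 (by rw [h6, h11, norm_zero])
      rw [← hvx, ← hwy, h11, h12]
    · have hv0 : 0 < ‖v‖ := norm_pos_iff.2 h11
      have h12 : cc D * ‖v‖ ≠ 0 := by positivity
      have h13 : 0 < Real.sin (cc D * ‖v‖) := by
        refine Real.sin_pos_of_pos_of_lt_pi (by positivity) ?_
        have := mul_lt_mul_of_pos_left h7 hc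
        rw [m.ccD] at this
        linarith [Real.pi_pos]
      have h14 : cc D * Real.sinc (cc D * ‖v‖) ≠ 0 := by
        rw [Real.sinc_of_ne_zero h12]
        positivity
      have h15 := smul_right_injective (HV (n + 1)) h14 h10
      have h16 := io_inj h15
      rw [← hvx, ← hwy, h16]
  · have h8 : ‖w‖ = D := h6.trans h7
    rw [m.S_D h8, m.S_D h7] at h3
    have hu : ‖D⁻¹ • v‖ = 1 := by
      rw [norm_smul, h7, Real.norm_of_nonneg (inv_pos.2 hD).le, inv_mul_cancel₀ hD.ne']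
    have hu' : ‖D⁻¹ • w‖ = 1 := by
      rw [norm_smul, h8, Real.norm_of_nonneg (inv_pos.2 hD).le, inv_mul_cancel₀ hD.ne']
    have hvu : v = D • (D⁻¹ • v) := by rw [smul_smul, mul_inv_cancel₀ hD.ne', one_smul]
    have hwu : w = D • (D⁻¹ • w) := by rw [smul_smul, mul_inv_cancel₀ hD.ne', one_smul]
    have h9 : D⁻¹ • w = rm (D⁻¹ • v) μ := by
      refine io_inj ?_
      rw [io_rm, h3]
    have h10 : ee e T (D • (D⁻¹ • v)) = ee e T (D • (D⁻¹ • w)) := by
      rw [m.same hu hu', h9, hp_rm_right, hp_unit hu, one_mul]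
    rw [← hvx, ← hwy, hvu, hwu]
    exact h10

/-- the map is surjective onto the projective space -/
theorem Mod.surj (m : Mod e D p T) {z : HV (n + 1)} (hz : ‖z‖ = 1) :
    ∃ x : M, ∃ μ : Quaternion ℝ, ‖μ‖ = 1 ∧ ZZ m.rig.facts D T x = rm z μ := by
  obtain ⟨v, h1, μ, h2, h3⟩ := S_surj m.cpos hz
  have hv : ‖v‖ ≤ D := by
    rw [← m.ccD] at h1
    exact le_of_mul_le_mul_left h1 m.cpos
  obtain ⟨ν, h4, h5⟩ := m.phase hv
  refine ⟨ee e T v, μ * ν, by rw [norm_mul, h2, h4, one_mul], ?_⟩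
  rw [h5, h3, rm_rm]

theorem Mod.continuous_ee (m : Mod e D p T) : Continuous (ee e T) := by
  have hc : Continuous (e p) := (contMDiff_exp_fiber m.rig.facts.isExp p).continuous
  exact hc.comp T.symm.continuous

/-- continuity of the distance function -/
theorem Mod.continuous_fs (m : Mod e D p T) : Continuous fun q : M × M =>
    fs (ZZ m.rig.facts D T q.1) (ZZ m.rig.facts D T q.2) := by
  let g : Metric.closedBall (0 : HV n) D → M := fun v => ee e T v
  have hgc : Continuous g := m.continuous_ee.comp continuous_subtype_val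
  have hsurj : Function.Surjective g := fun y => by
    refine ⟨⟨ll m.rig.facts T y, ?_⟩, ee_ll m.rig.facts T y⟩
    rw [mem_closedBall_zero_iff]
    exact (norm_ll m.rig.facts T y).trans_le (m.rig.diam p y)
  have hcomp : CompactSpace (Metric.closedBall (0 : HV n) D) :=
    isCompact_iff_compactSpace.1 (isCompact_closedBall _ _)
  have hgg : Continuous (Prod.map g g) := hgc.prodMap hgc
  have hq : Topology.IsQuotientMap (Prod.map g g) :=
    hgg.isClosedMap.isQuotientMap hgg (hsurj.prodMap hsurj)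
  rw [hq.continuous_iff]
  have h1 : (fun q : M × M => fs (ZZ m.rig.facts D T q.1) (ZZ m.rig.facts D T q.2)) ∘
      Prod.map g g = fun q => fs (S (cc D) q.1.1) (S (cc D) q.2.1) :=
    funext fun q => m.fs_eq (mem_closedBall_zero_iff.1 q.1.2) (mem_closedBall_zero_iff.1 q.2.2)
  rw [h1]
  have h2 := continuous_S (n := n) (cc D)
  unfold fs
  have h3 : Continuous fun q : (Metric.closedBall (0 : HV n) D) ×
      (Metric.closedBall (0 : HV n) D) => (S (cc D) q.1.1, S (cc D) q.2.1) :=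
    (h2.comp (continuous_subtype_val.comp continuous_fst)).prodMk
      (h2.comp (continuous_subtype_val.comp continuous_snd))
  exact Real.continuous_arccos.comp (continuous_hp.comp h3).norm

end

end Vale.Agent.P231.QF
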