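import Vale.Agent.P231.QF.QF4
import Vale.Agent.P231.H512.FS5

/-! P231: the map to the quaternionic projective space does not increase distances. -/

set_option maxSynthPendingDepth 3
set_option linter.unusedSectionVars false

open Bundle Manifold Set Filter Module
open scoped ContDiff Manifold Topology

namespace Vale.Agent.P231.QF

noncomputable section

open Vale.Agent.P234 Vale.Agent.P231 Vale.Agent.P231.H703 Vale.Agent.P231.H775
  Vale.Agent.P231.H512

variable {E : Type*} [NormedAddCommGroup E] [NormedSpace ℝ E] [FiniteDimensional ℝ E]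
  {M : Type*} [MetricSpace M] [ChartedSpace E M]
  [RiemannianBundle (fun x : M => TangentSpace 𝓘(ℝ, E) x)]
  [IsManifold 𝓘(ℝ, E) ∞ M]
  [IsContMDiffRiemannianBundle 𝓘(ℝ, E) ∞ E (fun x : M => TangentSpace 𝓘(ℝ, E) x)]
  {e : ∀ x : M, TangentSpace 𝓘(ℝ, E) x → M}
  [CompactSpace M] [ConnectedSpace M] [IsRiemannianManifold 𝓘(ℝ, E) M]
  {D : ℝ} {p : M} {n : ℕ} {T : TangentSpace 𝓘(ℝ, E) p ≃ₗᵢ[ℝ] HV n}

/-- the metric in normal coordinates (raw form) -/
theorem metricE (F : Facts e) {P : E → E →ₗ[ℝ] E} (hP : PData e D 3 p P) {u : E}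
    (hu : nm p u = 1) {r : ℝ} (hr : r ∈ Ioo 0 D) (w : E) :
    nm (e p (r • u : E)) (dE e p (r • u) w) ^ 2 = ip p u w ^ 2 +
      (Real.sin (cc D * r) / (cc D * r)) ^ 2 *
        (nm p (w - ip p u w • u) ^ 2 - Real.sin (cc D * r) ^ 2 *
          nm p (P u (w - ip p u w • u)) ^ 2) := by
  have h3 := metric_formula F hP hu hr w
  have h9 : Real.pi * r / (2 * D) = cc D * r := by
    unfold cc
    ring
  rw [h9] at h3
  exact h3

/-- the derivative of the map has the right length -/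
theorem Mod.speed (m : Mod e D p T) {η : ℝ → HV n} {t : ℝ}
    {η' : HV n} (hη : HasDerivAt η η' t) (h0 : η t ≠ 0) (hD : ‖η t‖ < D) :
    ∃ z' : HV (n + 1), HasDerivAt (fun s => S (cc D) (η s)) z' t ∧
      ‖Qp (S (cc D) (η t)) z'‖ =
        cc D * nm (E := E) (ee e T (η t)) (dE (E := E) e p (T.symm (η t)) (T.symm η')) := by
  obtain ⟨P, hP, hJ⟩ := m.proj
  have hc := m.cpos
  set r : ℝ := ‖η t‖ with hr
  have hr0 : 0 < r := norm_pos_iff.2 h0
  set u : HV n := r⁻¹ • η t with hu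
  have hηu : η t = r • u := by rw [hu, smul_smul, mul_inv_cancel₀ hr0.ne', one_smul]
  have hu1 : ‖u‖ = 1 := by
    rw [hu, norm_smul, norm_inv, norm_norm, inv_mul_cancel₀ hr0.ne']
  set a : ℝ := inner ℝ u η' with ha
  obtain ⟨z', h1, h2⟩ := deriv_S hc.ne' hη hr.symm hr0 hηu ha.symm
  refine ⟨z', h1, ?_⟩
  have hu1' : ‖T.symm u‖ = 1 := (T.symm.norm_map u).trans hu1
  have ha' : (inner ℝ (T.symm u) (T.symm η') : ℝ) = a := T.symm.inner_map_map u η'
  have hw0 : (inner ℝ (T.symm u) (T.symm (η' - a • u)) : ℝ) = 0 := by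
    rw [T.symm.inner_map_map, inner_sub_right, inner_smul_right, real_inner_self_eq_norm_sq, hu1,
      ← ha]
    ring
  have hPn : ‖tof p (P p (T.symm u : E) (T.symm (η' - a • u) : E))‖ = ‖hp u (η' - a • u)‖ := by
    have h5 := hJ (T.symm u) (T.symm (η' - a • u)) hu1'
    rw [hw0, zero_smul, zero_add, T.apply_symm_apply, T.apply_symm_apply] at h5
    have h6 := congrArg norm h5
    rw [T.norm_map, norm_rm, hu1, one_mul] at h6
    exact h6
  have h3 : nm (E := E) (ee e T (η t)) (dE (E := E) e p (T.symm (η t)) (T.symm η')) ^ 2 =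
      a ^ 2 + (Real.sin (cc D * r) / (cc D * r)) ^ 2 *
        (‖η' - a • u‖ ^ 2 - Real.sin (cc D * r) ^ 2 * ‖hp u (η' - a • u)‖ ^ 2) := by
    let U : E := T.symm u
    let W : E := T.symm η'
    let W' : E := T.symm (η' - a • u)
    have h4 := metricE m.rig.facts (hP p) (u := U) hu1' (r := r) ⟨hr0, hD⟩ W
    have h9 : ip (E := E) p U W = a := ha'
    have h7 : W - ip (E := E) p U W • U = W' := by
      have h8 : T.symm (η' - a • u) = T.symm η' - a • T.symm u := by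
        rw [map_sub, map_smul]
      rw [h9]
      exact h8.symm
    have h10 : nm (E := E) p W' = ‖η' - a • u‖ := T.symm.norm_map _
    have h11 : nm (E := E) p (P p U W') = ‖hp u (η' - a • u)‖ := hPn
    rw [h7, h9, h10, h11] at h4
    rw [← h4, hηu]
    have h12 : T.symm (r • u) = r • T.symm u := map_smul _ _ _
    unfold ee
    rw [h12]
    rfl
  have h10 : ‖Qp (S (cc D) (η t)) z'‖ ^ 2 =
      (cc D * nm (E := E) (ee e T (η t)) (dE (E := E) e p (T.symm (η t)) (T.symm η'))) ^ 2 := by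
    have h4 : (cc D * nm (E := E) (ee e T (η t))
        (dE (E := E) e p (T.symm (η t)) (T.symm η'))) ^ 2 = cc D ^ 2 *
        (a ^ 2 + (Real.sin (cc D * r) / (cc D * r)) ^ 2 *
        (‖η' - a • u‖ ^ 2 - Real.sin (cc D * r) ^ 2 * ‖hp u (η' - a • u)‖ ^ 2)) :=
      (mul_pow _ _ _).trans (congrArg (fun x => cc D ^ 2 * x) h3)
    refine Eq.trans ?_ h4.symm
    rw [h2]
    have := hc.ne'
    have := hr0.ne'
    field_simp
  exact (sq_eq_sq₀ (norm_nonneg _) (mul_nonneg hc.le (nm_nonneg _ _))).1 h10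

/-- local estimate for smooth curves -/
theorem Mod.local_le (m : Mod e D p T) {γ : ℝ → M} {t : ℝ}
    (hγ : ContMDiffAt 𝓘(ℝ, ℝ) 𝓘(ℝ, E) ∞ γ t) {ℓ : ℝ}
    (hs : nm (E := E) (γ t) (mfderiv 𝓘(ℝ, ℝ) 𝓘(ℝ, E) γ t (1 : ℝ)) = ℓ) (h0 : γ t ≠ p)
    (hD : dist p (γ t) < D) {C : ℝ} (hC : cc D * ℓ < C) :
    ∀ᶠ s in 𝓝[≠] t, fs (ZZ m.rig.facts D T (γ t)) (ZZ m.rig.facts D T (γ s)) ≤
      C * |s - t| := by
  set F := m.rig.facts with hF
  set v : TangentSpace 𝓘(ℝ, E) p := symmL F p (γ t) with hv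
  have hvD : ‖v‖ < D := (symmL_norm F p (γ t)).trans_lt hD
  have hev : e p v = γ t := symmL_exp F p (γ t)
  obtain ⟨Λ, hΛ, hΛv, hΛ1, -⟩ := F.smoothLog (m.rig.inj.mem_injDomain hvD)
  rw [hev] at hΛ hΛv hΛ1
  have hηs : ContMDiffAt 𝓘(ℝ, ℝ) 𝓘(ℝ, TangentSpace 𝓘(ℝ, E) p) ∞ (fun s => Λ (γ s)) t :=
    hΛ.comp t hγ
  have h1 : γ =ᶠ[𝓝 t] fun s => e p (Λ (γ s)) := by
    filter_upwards [hγ.continuousAt hΛ1] with s hs
    exact hs.2.symm
  have hη := (hηs.contDiffAt.differentiableAt (by simp)).hasDerivAt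
  set η : ℝ → TangentSpace 𝓘(ℝ, E) p := fun s => Λ (γ s) with hηdef
  have hηt : η t = v := hΛv
  have hv0 : v ≠ 0 := by
    intro h2
    apply h0
    rw [← hev, h2]
    exact F.isExp.map_zero p
  let L : TangentSpace 𝓘(ℝ, E) p →L[ℝ] HV n := (T.toContinuousLinearEquiv :
    TangentSpace 𝓘(ℝ, E) p ≃L[ℝ] HV n)
  have hTη : HasDerivAt (fun s => T (η s)) (T (deriv η t)) t :=
    L.hasFDerivAt.comp_hasDerivAt t hη
  obtain ⟨z', h2, h3⟩ := m.speed hTη
    (by
      show T (η t) ≠ 0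
      rw [hηt]
      exact fun h => hv0 (by
        have := congrArg norm h
        rw [T.norm_map, norm_zero] at this
        exact norm_eq_zero.1 this))
    (by
      show ‖T (η t)‖ < D
      rw [T.norm_map, hηt]
      exact hvD)
  rw [T.symm_apply_apply, T.symm_apply_apply] at h3
  have h4 : (mfderiv 𝓘(ℝ, ℝ) 𝓘(ℝ, E) γ t (1 : ℝ) : E) = dE e p (η t : E) (deriv η t : E) :=
    (congrArg (fun L : ℝ →L[ℝ] E => L 1) h1.mfderiv_eq).trans (mfderiv_exp_curve F.isExp p hη)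
  have h5 : ee e T (T (η t)) = γ t := by
    unfold ee
    rw [T.symm_apply_apply, hηt, hev]
  have h6 : nm (E := E) (ee e T (T (η t))) (dE (E := E) e p (η t) (deriv η t)) = ℓ := by
    rw [h5, ← hs]
    exact congrArg (nm (E := E) (γ t)) h4.symm
  have h3 : ‖Qp (S (cc D) (T (η t))) z'‖ = cc D * ℓ := h3.trans (congrArg (fun x => cc D * x) h6)
  have hcη : ContinuousAt η t := hη.continuousAt
  have h7 : ∀ᶠ s in 𝓝 t, ‖η s‖ < D :=
    hcη.norm.eventually_lt continuousAt_const (by rw [hηt]; exact hvD)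
  have h8 := fs_le_of_deriv (z := fun s => S (cc D) (T (η s))) (t := t) (z' := z')
    (Eventually.of_forall fun s => norm_S m.cpos.ne' _) h2 (C := C) (by rw [h3]; exact hC)
  filter_upwards [h8, nhdsWithin_le_nhds h7, nhdsWithin_le_nhds h1] with s h9 h10 h11
  have h12 : γ s = ee e T (T (η s)) := by
    unfold ee
    rw [T.symm_apply_apply]
    exact h11
  rw [h12, ← h5, m.fs_eq (by rw [T.norm_map, hηt]; exact hvD.le) (by rw [T.norm_map]; exact h10.le)]
  exact h9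

/-- the Fubini-Study distance on `M` -/
def Mod.dl (m : Mod e D p T) (x y : M) : ℝ :=
  fs (ZZ m.rig.facts D T x) (ZZ m.rig.facts D T y)

theorem Mod.dl_def (m : Mod e D p T) (x y : M) :
    m.dl x y = fs (ZZ m.rig.facts D T x) (ZZ m.rig.facts D T y) := rfl

theorem Mod.dl_self (m : Mod e D p T) (x : M) : m.dl x x = 0 := fs_self (m.norm_ZZ x)

theorem Mod.dl_tri (m : Mod e D p T) (x y z : M) : m.dl x z ≤ m.dl x y + m.dl y z :=
  fs_triangle (m.norm_ZZ _) (m.norm_ZZ _) (m.norm_ZZ _)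

theorem Mod.continuous_dl (m : Mod e D p T) : Continuous fun q : M × M => m.dl q.1 q.2 :=
  m.continuous_fs

theorem Mod.dl_local (m : Mod e D p T) {γ : ℝ → M} {t : ℝ}
    (hγ : ContMDiffAt 𝓘(ℝ, ℝ) 𝓘(ℝ, E) ∞ γ t) {ℓ : ℝ}
    (hs : nm (E := E) (γ t) (mfderiv 𝓘(ℝ, ℝ) 𝓘(ℝ, E) γ t (1 : ℝ)) = ℓ) (h0 : γ t ≠ p)
    (hD : dist p (γ t) < D) {C : ℝ} (hC : cc D * ℓ < C) :
    ∀ᶠ s in 𝓝[>] t, m.dl (γ t) (γ s) ≤ C * (s - t) := by
  have h4 := m.local_le hγ hs h0 hD hC
  have h5 : 𝓝[>] t ≤ 𝓝[≠] t := nhdsWithin_mono t fun s hs => ne_of_gt hs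
  filter_upwards [h5 h4, self_mem_nhdsWithin] with s h6 h7
  rwa [abs_of_pos (sub_pos.2 h7)] at h6

attribute [irreducible] Mod.dl

theorem Mod.le_of_lt (m : Mod e D p T) {x : M} (hx : dist p x < D) (y : M) :
    m.dl x y ≤ cc D * dist x y := by
  classical
  have F := m.rig.facts
  rcases eq_or_ne x y with rfl | hxy
  · rw [m.dl_self x, dist_self, mul_zero]
  obtain ⟨w', hw', hdw'⟩ := F.hopfRinow x y
  obtain ⟨w, hw, hdw⟩ : ∃ w : E, e x w = y ∧ nm x w = dist x y := ⟨w', hw', hdw'.symm⟩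
  have hc0 : gam e x w 0 = x := gam_zero F.isExp x w
  have hc1 : gam e x w 1 = y := by
    have : gam e x w 1 = e x ((1 : ℝ) • w : E) := rfl
    rw [this, one_smul, hw]
  have hcs : ContMDiff 𝓘(ℝ, ℝ) 𝓘(ℝ, E) ∞ (gam e x w) := contMDiff_gam F.isExp x w
  have hcc : Continuous (gam e x w) := hcs.continuous
  have hℓ0 : 0 < dist x y := dist_pos.2 hxy
  have hspeed : ∀ t, nm (E := E) (gam e x w t)
      (mfderiv 𝓘(ℝ, ℝ) 𝓘(ℝ, E) (gam e x w) t (1 : ℝ)) = dist x y := by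
    intro t
    have h1 : nm (E := E) (gam e x w t) (mfderiv 𝓘(ℝ, ℝ) 𝓘(ℝ, E) (gam e x w) t (1 : ℝ)) =
        nm (E := E) (gam e x w t) (vel e x (w : E) t) :=
      congrArg (nm (E := E) (gam e x w t)) (mfderiv_gam F.isExp x w t)
    rw [h1]
    exact (nm_vel F x w t).trans hdw
  have hK : Set.Subsingleton {t : ℝ | t ∈ Icc (0 : ℝ) 1 ∧ dist p (gam e x w t) = D} :=
    FS.subsing_of_not_lt fun t₁ t₂ h1 h2 => FS.cut_not_lt m.rig hx hw hdw h1.1 h2.1 h1.2 h2.2
  have hP : Set.Subsingleton {t : ℝ | t ∈ Icc (0 : ℝ) 1 ∧ gam e x w t = p} :=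
    FS.subsing_of_not_lt fun t₁ t₂ h1 h2 h5 => by
      have h6 := FS.geo_dist F hw hdw h1.1.1 h5.le h2.1.2
      rw [h1.2, h2.2, dist_self] at h6
      exact (mul_pos hℓ0 (sub_pos.2 h5)).ne h6
  have hfin := hK.finite.union hP.finite
  have hcont : Continuous fun q : ℝ × ℝ => m.dl (gam e x w q.1) (gam e x w q.2) :=
    m.continuous_dl.comp ((hcc.comp continuous_fst).prodMk (hcc.comp continuous_snd))
  have h1 := FS.lip_finite (δ := fun s t => m.dl (gam e x w s) (gam e x w t))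
    (C := cc D * dist x y) (a := 0) (b := 1) hfin.toFinset zero_le_one
    (fun t => m.dl_self _) (fun r s t => m.dl_tri _ _ _) hcont
    (fun t ht htB C' hC' => by
      rw [Set.Finite.mem_toFinset, Set.mem_union, not_or] at htB
      have ht' : t ∈ Icc (0 : ℝ) 1 := ⟨ht.1.le, ht.2.le⟩
      have h2 : dist p (gam e x w t) < D :=
        lt_of_le_of_ne (m.rig.diam _ _) fun h => htB.1 ⟨ht', h⟩
      have h3 : gam e x w t ≠ p := fun h => htB.2 ⟨ht', h⟩
      exact m.dl_local (γ := gam e x w) (t := t) hcs.contMDiffAt (hspeed t) h3 h2 hC')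
  rw [sub_zero, mul_one, hc0, hc1] at h1
  exact h1

/-- a closed condition which holds off the cut locus holds everywhere -/
theorem Mod.of_lt (m : Mod e D p T) {Q : M → Prop} (hQ : IsClosed {x | Q x})
    (h : ∀ x, dist p x < D → Q x) (x : M) : Q x := by
  rcases (m.rig.diam p x).lt_or_eq with h0 | h0
  · exact h x h0
  · obtain ⟨v, hvx, hvD⟩ : ∃ v : TangentSpace 𝓘(ℝ, E) p, e p v = x ∧ ‖v‖ = D :=
      ⟨symmL m.rig.facts p x, symmL_exp m.rig.facts p x, (symmL_norm m.rig.facts p x).trans h0⟩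
    have hc : Continuous (e p) := (contMDiff_exp_fiber m.rig.facts.isExp p).continuous
    have hcs : Continuous fun s : ℝ => e p (s • v) :=
      hc.comp (continuous_id.smul continuous_const)
    have hcl : IsClosed {s : ℝ | Q (e p (s • v))} := hQ.preimage hcs
    have hsub : Ioo (0 : ℝ) 1 ⊆ {s : ℝ | Q (e p (s • v))} := by
      intro s hs
      refine h _ ?_
      have hlt : ‖s • v‖ < D := by
        rw [norm_smul, hvD, Real.norm_of_nonneg hs.1.le]
        have := m.rig.pos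
        nlinarith [hs.2]
      rw [m.rig.inj p _ hlt.le]
      exact hlt
    have h2 := closure_minimal hsub hcl
    rw [closure_Ioo zero_ne_one] at h2
    have h3 : Q (e p ((1 : ℝ) • v)) := h2 (right_mem_Icc.2 zero_le_one)
    rwa [one_smul, hvx] at h3

theorem Mod.le (m : Mod e D p T) (x y : M) : m.dl x y ≤ cc D * dist x y :=
  m.of_lt (Q := fun x => m.dl x y ≤ cc D * dist x y)
    (isClosed_le (m.continuous_dl.comp (continuous_id.prodMk continuous_const))
      (continuous_const.mul (continuous_id.dist continuous_const)))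
    (fun _ hx => m.le_of_lt hx y) x

end

end Vale.Agent.P231.QF
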