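import Vale.Agent.P231.QF.QF5
import Mathlib.Analysis.Calculus.ContDiff.WithLp

/-! P231: the map to the quaternionic projective space does not decrease distances. -/

set_option maxSynthPendingDepth 3
set_option linter.unusedSectionVars false

open Bundle Manifold Set Filter Module
open scoped ContDiff Manifold Topology

namespace Vale.Agent.P231.QF

noncomputable section

section pure

variable {n : ℕ}

/-- the geodesic -/
def gd (z₀ z₂ : HV n) (t : ℝ) : HV n := Real.cos t • z₀ + Real.sin t • z₂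

theorem smul_one_q (r : ℝ) : r • (1 : Quaternion ℝ) = (r : Quaternion ℝ) := by
  rw [← Quaternion.coe_one, Quaternion.smul_coe, mul_one]

theorem hp_gd {z₀ z₂ : HV n} (h0 : ‖z₀‖ = 1) (h2 : ‖z₂‖ = 1) (h : hp z₀ z₂ = 0)
    (s t : ℝ) : hp (gd z₀ z₂ s) (gd z₀ z₂ t) = ((Real.cos (s - t) : ℝ) : Quaternion ℝ) := by
  have h' : hp z₂ z₀ = 0 := by rw [← star_hp, h, star_zero]
  unfold gd
  rw [hp_add_left, hp_add_right, hp_add_right, hp_smul_left, hp_smul_left, hp_smul_left,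
    hp_smul_left, hp_smul_right, hp_smul_right, hp_smul_right, hp_smul_right, h, h', hp_unit h0,
    hp_unit h2, smul_zero, smul_zero, smul_zero, smul_zero, add_zero, zero_add, smul_smul,
    smul_smul, ← add_smul, ← Real.cos_sub, smul_one_q]

theorem norm_gd {z₀ z₂ : HV n} (h0 : ‖z₀‖ = 1) (h2 : ‖z₂‖ = 1) (h : hp z₀ z₂ = 0)
    (t : ℝ) : ‖gd z₀ z₂ t‖ = 1 := by
  have h1 := hp_gd h0 h2 h t t
  rw [sub_self, Real.cos_zero, hp_self] at h1
  have h3 := congrArg (fun q : Quaternion ℝ => q.re) h1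
  simp only [Quaternion.re_coe] at h3
  exact (pow_eq_one_iff_of_nonneg (norm_nonneg _) two_ne_zero).1 h3

theorem fs_gd {z₀ z₂ : HV n} (h0 : ‖z₀‖ = 1) (h2 : ‖z₂‖ = 1) (h : hp z₀ z₂ = 0)
    {s t : ℝ} (hst : |s - t| ≤ Real.pi / 2) : fs (gd z₀ z₂ s) (gd z₀ z₂ t) = |s - t| := by
  unfold fs
  rw [hp_gd h0 h2 h, Quaternion.norm_coe, ← Real.cos_abs, Real.norm_of_nonneg, Real.arccos_cos]
  · exact abs_nonneg _
  · linarith [Real.pi_pos]
  · exact Real.cos_nonneg_of_neg_pi_div_two_le_of_le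
      (by linarith [Real.pi_pos, abs_nonneg (s - t)]) hst

/-- geodesics exist -/
theorem exists_gd {z₀ w : HV n} (h0 : ‖z₀‖ = 1) (hw : ‖w‖ = 1) (hpos : 0 < fs z₀ w) :
    ∃ z₂ : HV n, ‖z₂‖ = 1 ∧ hp z₀ z₂ = 0 ∧ ∃ μ : Quaternion ℝ, ‖μ‖ = 1 ∧
      gd z₀ z₂ (fs z₀ w) = rm w μ := by
  obtain ⟨μ, hμ, hμ2⟩ : ∃ μ : Quaternion ℝ, ‖μ‖ = 1 ∧
      hp z₀ w * μ = ((‖hp z₀ w‖ : ℝ) : Quaternion ℝ) := by
    rcases eq_or_ne (hp z₀ w) 0 with h | h
    · exact ⟨1, norm_one, by rw [h, norm_zero, zero_mul, Quaternion.coe_zero]⟩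
    · refine ⟨‖hp z₀ w‖⁻¹ • star (hp z₀ w), ?_, ?_⟩
      · rw [norm_smul, norm_star, norm_inv, norm_norm, inv_mul_cancel₀ (norm_ne_zero_iff.2 h)]
      · rw [mul_smul_comm, self_mul_star_norm, Quaternion.smul_coe]
        congr 1
        field_simp
  set θ := fs z₀ w with hθ
  have hsin : 0 < Real.sin θ := Real.sin_pos_of_pos_of_lt_pi hpos (by
    have := fs_le z₀ w
    linarith [Real.pi_pos])
  have hw' : ‖rm w μ‖ = 1 := by rw [norm_rm, hμ, hw, mul_one]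
  have h1 : hp z₀ (rm w μ) = ((Real.cos θ : ℝ) : Quaternion ℝ) := by
    rw [hp_rm_right, hμ2, ← cos_fs h0 hw]
  have h2 : Qp z₀ (rm w μ) = rm w μ - Real.cos θ • z₀ := by
    unfold Qp
    rw [h1, rm_coe]
  have h3 : ‖Qp z₀ (rm w μ)‖ = Real.sin θ := by
    rw [← sin_fs h0 hw', fs_rm_right _ _ hμ]
  refine ⟨(Real.sin θ)⁻¹ • Qp z₀ (rm w μ), ?_, ?_, μ, hμ, ?_⟩
  · rw [norm_smul, h3, norm_inv, Real.norm_of_nonneg hsin.le, inv_mul_cancel₀ hsin.ne']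
  · rw [hp_smul_right, hp_Qp h0, smul_zero]
  · unfold gd
    rw [smul_smul, mul_inv_cancel₀ hsin.ne', one_smul, h2]
    abel

/-- conjugation -/
def stL : Quaternion ℝ →L[ℝ] Quaternion ℝ := LinearMap.toContinuousLinearMap
  { toFun := star
    map_add' := star_add
    map_smul' := fun r a => Quaternion.star_smul r a }

/-- the curve `v(t)` with `S (v t) ~ z(t)` -/
def vv (c : ℝ) (α₀ α₂ : Quaternion ℝ) (y₀ y₂ : HV n) (t : ℝ) : HV n :=
  FS.lg c (‖Real.cos t • α₀ + Real.sin t • α₂‖ ^ 2) •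
    rm (Real.cos t • y₀ + Real.sin t • y₂) (star (Real.cos t • α₀ + Real.sin t • α₂))

theorem contDiffAt_vv {c : ℝ} (hc : c ≠ 0) (α₀ α₂ : Quaternion ℝ)
    (y₀ y₂ : HV n) {t : ℝ}
    (h0 : 0 < ‖Real.cos t • α₀ + Real.sin t • α₂‖)
    (h1 : ‖Real.cos t • α₀ + Real.sin t • α₂‖ < 1) :
    ContDiffAt ℝ ∞ (vv c α₀ α₂ y₀ y₂) t := by
  have hα : ContDiff ℝ ∞ fun t : ℝ => Real.cos t • α₀ + Real.sin t • α₂ :=
    (Real.contDiff_cos.smul contDiff_const).add (Real.contDiff_sin.smul contDiff_const)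
  have hy : ContDiff ℝ ∞ fun t : ℝ => Real.cos t • y₀ + Real.sin t • y₂ :=
    (Real.contDiff_cos.smul contDiff_const).add (Real.contDiff_sin.smul contDiff_const)
  have hs : ContDiff ℝ ∞ fun t : ℝ => star (Real.cos t • α₀ + Real.sin t • α₂) :=
    stL.contDiff.comp hα
  have hr : ContDiff ℝ ∞ fun t : ℝ =>
      rm (Real.cos t • y₀ + Real.sin t • y₂) (star (Real.cos t • α₀ + Real.sin t • α₂)) := by
    rw [contDiff_piLp]
    intro i
    exact ((contDiff_piLp 2).1 hy i).mul hs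
  have hn : ContDiff ℝ ∞ fun t : ℝ => ‖Real.cos t • α₀ + Real.sin t • α₂‖ ^ 2 := hα.norm_sq ℝ
  have hl : ContDiffAt ℝ ∞ (fun t : ℝ => FS.lg c (‖Real.cos t • α₀ + Real.sin t • α₂‖ ^ 2)) t :=
    (FS.contDiffAt_lg c hc (by positivity) (by nlinarith)).comp t hn.contDiffAt
  exact hl.smul hr.contDiffAt

/-- good times are open -/
theorem good_open {α₀ α₂ : Quaternion ℝ} {y₀ y₂ : HV n} {t : ℝ}
    (hα : Real.cos t • α₀ + Real.sin t • α₂ ≠ 0) (hy : Real.cos t • y₀ + Real.sin t • y₂ ≠ 0) :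
    ∀ᶠ s : ℝ in 𝓝 t, Real.cos s • α₀ + Real.sin s • α₂ ≠ 0 ∧
      Real.cos s • y₀ + Real.sin s • y₂ ≠ 0 := by
  have h1 : Continuous fun s : ℝ => Real.cos s • α₀ + Real.sin s • α₂ :=
    (Real.continuous_cos.smul continuous_const).add (Real.continuous_sin.smul continuous_const)
  have h2 : Continuous fun s : ℝ => Real.cos s • y₀ + Real.sin s • y₂ :=
    (Real.continuous_cos.smul continuous_const).add (Real.continuous_sin.smul continuous_const)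
  exact (h1.continuousAt.eventually_ne hα).and (h2.continuousAt.eventually_ne hy)

end pure

open Vale.Agent.P234 Vale.Agent.P231 Vale.Agent.P231.H703 Vale.Agent.P231.H775
  Vale.Agent.P231.H512

variable {E : Type*} [NormedAddCommGroup E] [NormedSpace ℝ E] [FiniteDimensional ℝ E]
  {M : Type*} [MetricSpace M] [ChartedSpace E M]
  [RiemannianBundle (fun x : M => TangentSpace 𝓘(ℝ, E) x)]
  [IsManifold 𝓘(ℝ, E) ∞ M]
  [IsContMDiffRiemannianBundle 𝓘(ℝ, E) ∞ E (fun x : M => TangentSpace 𝓘(ℝ, E) x)]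
  {e : ∀ x : M, TangentSpace 𝓘(ℝ, E) x → M}
  [CompactSpace M] [ConnectedSpace M] [IsRiemannianManifold 𝓘(ℝ, E) M]
  {D : ℝ} {p : M} {n : ℕ} {T : TangentSpace 𝓘(ℝ, E) p ≃ₗᵢ[ℝ] HV n}

theorem Mod.dl_inj (m : Mod e D p T) {x y : M} (h : m.dl x y = 0) : x = y :=
  m.inj ((m.dl_def x y).symm.trans h)

theorem Mod.dl_nonneg (m : Mod e D p T) (x y : M) : 0 ≤ m.dl x y := by
  rw [m.dl_def]
  exact fs_nonneg _ _

/-- curves that are continuous for the Fubini-Study distance are continuous -/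
theorem Mod.continuous_of_dl (m : Mod e D p T) {X : ℝ → M}
    (h : ∀ t, Tendsto (fun s => m.dl (X t) (X s)) (𝓝 t) (𝓝 0)) : Continuous X := by
  rw [continuous_iff_continuousAt]
  intro t
  rw [ContinuousAt, tendsto_nhds]
  intro U hU hxU
  have hK : IsCompact Uᶜ := hU.isClosed_compl.isCompact
  have hcont : Continuous fun y => m.dl (X t) y :=
    m.continuous_dl.comp (continuous_const.prodMk continuous_id)
  rcases (Uᶜ).eq_empty_or_nonempty with he | hne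
  · refine Eventually.of_forall fun s => ?_
    rw [compl_empty_iff.1 he]
    trivial
  · obtain ⟨y, hy, hmin⟩ := hK.exists_isMinOn hne hcont.continuousOn
    have h1 : 0 < m.dl (X t) y := by
      refine lt_of_le_of_ne (m.dl_nonneg _ _) fun h2 => ?_
      exact hy (m.dl_inj h2.symm ▸ hxU)
    filter_upwards [(h t).eventually_lt_const h1] with s hs
    by_contra hcon
    exact absurd (hmin hcon) (not_le.2 hs)

/-- properties of the lifted curve -/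
theorem Mod.vv_spec (m : Mod e D p T) {z₀ z₂ : HV (n + 1)} (h0 : ‖z₀‖ = 1) (h2 : ‖z₂‖ = 1)
    (h : hp z₀ z₂ = 0) {α₀ α₂ : Quaternion ℝ} {y₀ y₂ : HV n}
    (hz₀ : z₀ = rm (e0 n) α₀ + io n y₀) (hz₂ : z₂ = rm (e0 n) α₂ + io n y₂) {t : ℝ}
    (hα : Real.cos t • α₀ + Real.sin t • α₂ ≠ 0) (hy : Real.cos t • y₀ + Real.sin t • y₂ ≠ 0) :
    ‖Real.cos t • α₀ + Real.sin t • α₂‖ < 1 ∧
    ‖vv (cc D) α₀ α₂ y₀ y₂ t‖ < D ∧ vv (cc D) α₀ α₂ y₀ y₂ t ≠ 0 ∧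
      ∃ μ : Quaternion ℝ, ‖μ‖ = 1 ∧ S (cc D) (vv (cc D) α₀ α₂ y₀ y₂ t) = rm (gd z₀ z₂ t) μ := by
  have hgd : gd z₀ z₂ t = rm (e0 n) (Real.cos t • α₀ + Real.sin t • α₂) +
      io n (Real.cos t • y₀ + Real.sin t • y₂) := by
    unfold gd
    rw [hz₀, hz₂, map_add, map_smul, map_smul, smul_add, smul_add, rm_add_right, rm_smul_right,
      rm_smul_right]
    abel
  have h1 := norm_gd h0 h2 h t
  rw [hgd] at h1
  set α := Real.cos t • α₀ + Real.sin t • α₂ with hαd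
  set y := Real.cos t • y₀ + Real.sin t • y₂ with hyd
  have h3 := norm_sq_dec α y
  rw [h1, one_pow] at h3
  have hc := m.cpos
  obtain ⟨h4, h5⟩ := S_log hc hα hy h3.symm
  have hα0 : 0 < ‖α‖ := norm_pos_iff.2 hα
  have hy0 : 0 < ‖y‖ := norm_pos_iff.2 hy
  have hα1 : ‖α‖ < 1 := by nlinarith
  have hv : vv (cc D) α₀ α₂ y₀ y₂ t = FS.lg (cc D) (‖α‖ ^ 2) • rm y (star α) := rfl
  rw [hv]
  refine ⟨hα1, ?_, ?_, ‖α‖⁻¹ • star α, ?_, ?_⟩
  · rw [h4, div_lt_iff₀ hc, mul_comm D, m.ccD, Real.arccos_lt_pi_div_two]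
    exact hα0
  · rw [← norm_ne_zero_iff, h4]
    exact (div_pos (Real.arccos_pos.2 hα1) hc).ne'
  · rw [norm_smul, norm_star, norm_inv, norm_norm, inv_mul_cancel₀ hα0.ne']
  · rw [h5, hgd]

/-- the lifted curve has constant speed -/
theorem Mod.vv_speed (m : Mod e D p T) {z₀ z₂ : HV (n + 1)} (h0 : ‖z₀‖ = 1) (h2 : ‖z₂‖ = 1)
    (h : hp z₀ z₂ = 0) {α₀ α₂ : Quaternion ℝ} {y₀ y₂ : HV n}
    (hz₀ : z₀ = rm (e0 n) α₀ + io n y₀) (hz₂ : z₂ = rm (e0 n) α₂ + io n y₂) {t : ℝ}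
    (hα : Real.cos t • α₀ + Real.sin t • α₂ ≠ 0) (hy : Real.cos t • y₀ + Real.sin t • y₂ ≠ 0) :
    ContMDiffAt 𝓘(ℝ, ℝ) 𝓘(ℝ, E) 1 (fun s => ee e T (vv (cc D) α₀ α₂ y₀ y₂ s)) t ∧
    nm (E := E) (ee e T (vv (cc D) α₀ α₂ y₀ y₂ t))
      (mfderiv 𝓘(ℝ, ℝ) 𝓘(ℝ, E) (fun s => ee e T (vv (cc D) α₀ α₂ y₀ y₂ s)) t (1 : ℝ)) =
        1 / cc D := by
  have hc := m.cpos
  obtain ⟨h1, h3, h4, μ, hμ, h5⟩ := m.vv_spec h0 h2 h hz₀ hz₂ hα hy
  have hs := contDiffAt_vv hc.ne' α₀ α₂ y₀ y₂ (norm_pos_iff.2 hα) h1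
  generalize hv : vv (cc D) α₀ α₂ y₀ y₂ = v at *
  have hη : HasDerivAt v (deriv v t) t := (hs.differentiableAt (by simp)).hasDerivAt
  obtain ⟨z', h6, h7⟩ := m.speed hη h4 h3
  have h8 : ∀ᶠ s in 𝓝 t, fs (S (cc D) (v t)) (S (cc D) (v s)) = |s - t| := by
    have h9 : ∀ᶠ s : ℝ in 𝓝 t, |t - s| < Real.pi / 2 := by
      have h10 : ContinuousAt (fun s : ℝ => |t - s|) t :=
        (continuous_const.sub continuous_id).abs.continuousAt
      refine h10.eventually_lt continuousAt_const ?_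
      simp [Real.pi_pos]
    filter_upwards [good_open hα hy, h9] with s hs1 hs2
    obtain ⟨-, -, -, ν, hν, h10⟩ := m.vv_spec h0 h2 h hz₀ hz₂ hs1.1 hs1.2
    rw [hv] at h10
    rw [h5, h10, fs_rm_left _ _ hμ, fs_rm_right _ _ hν, fs_gd h0 h2 h hs2.le, abs_sub_comm]
  have h9 := norm_Qp_eq_one (z := fun s => S (cc D) (v s)) (t := t)
    (Eventually.of_forall fun s => norm_S hc.ne' _) h6 h8
  let L : HV n →L[ℝ] TangentSpace 𝓘(ℝ, E) p := (T.symm.toContinuousLinearEquiv :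
    HV n ≃L[ℝ] TangentSpace 𝓘(ℝ, E) p)
  have hLη : HasDerivAt (fun s => L (v s)) (T.symm (deriv v t)) t :=
    L.hasFDerivAt.comp_hasDerivAt t hη
  refine ⟨?_, ?_⟩
  · have h10 : ContMDiffAt 𝓘(ℝ, ℝ) 𝓘(ℝ, TangentSpace 𝓘(ℝ, E) p) 1 (fun s => L (v s)) t :=
      (L.contDiff.contDiffAt.comp t
        (hs.of_le (by simp only [WithTop.one_le_coe, le_top]))).contMDiffAt
    exact ((contMDiff_exp_fiber m.rig.facts.isExp p).contMDiffAt.of_le
      (by simp only [WithTop.one_le_coe, le_top])).comp t h10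
  · have h10 : (mfderiv 𝓘(ℝ, ℝ) 𝓘(ℝ, E) (fun s => ee e T (v s)) t (1 : ℝ) : E) =
        dE e p (T.symm (v t) : E) (T.symm (deriv v t) : E) :=
      mfderiv_exp_curve m.rig.facts.isExp p hLη
    have h11 : nm (E := E) (ee e T (v t))
          (mfderiv 𝓘(ℝ, ℝ) 𝓘(ℝ, E) (fun s => ee e T (v s)) t (1 : ℝ)) =
        nm (E := E) (ee e T (v t)) (dE (E := E) e p (T.symm (v t)) (T.symm (deriv v t))) :=
      congrArg (nm (E := E) (ee e T (v t))) h10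
    rw [h11, eq_div_iff hc.ne', mul_comm]
    exact h7.symm.trans h9

/-- local estimate for the lifted curve -/
theorem Mod.local_ge (m : Mod e D p T) {z₀ z₂ : HV (n + 1)} (h0 : ‖z₀‖ = 1) (h2 : ‖z₂‖ = 1)
    (h : hp z₀ z₂ = 0) {α₀ α₂ : Quaternion ℝ} {y₀ y₂ : HV n}
    (hz₀ : z₀ = rm (e0 n) α₀ + io n y₀) (hz₂ : z₂ = rm (e0 n) α₂ + io n y₂) {X : ℝ → M}
    (hX : ∀ t, ∃ μ : Quaternion ℝ, ‖μ‖ = 1 ∧ ZZ m.rig.facts D T (X t) = rm (gd z₀ z₂ t) μ) {t : ℝ}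
    (hα : Real.cos t • α₀ + Real.sin t • α₂ ≠ 0) (hy : Real.cos t • y₀ + Real.sin t • y₂ ≠ 0) :
    ∀ᶠ s in 𝓝[>] t, dist (X t) (X s) ≤ 1 / cc D * (s - t) := by
  have hc := m.cpos
  have hXv : ∀ s, Real.cos s • α₀ + Real.sin s • α₂ ≠ 0 ∧
      Real.cos s • y₀ + Real.sin s • y₂ ≠ 0 → X s = ee e T (vv (cc D) α₀ α₂ y₀ y₂ s) := by
    intro s hs
    obtain ⟨-, h3, -, μ, hμ, h5⟩ := m.vv_spec h0 h2 h hz₀ hz₂ hs.1 hs.2
    obtain ⟨ν, hν, h6⟩ := hX s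
    obtain ⟨ρ, hρ, h7⟩ := m.phase h3.le
    refine m.inj ?_
    rw [h6, h7, h5, rm_rm, fs_rm_left _ _ hν,
      fs_rm_right _ _ (by rw [norm_mul, hμ, hρ, mul_one]), fs_self (norm_gd h0 h2 h s)]
  obtain ⟨ε, hε, hball⟩ := Metric.eventually_nhds_iff.1 (good_open hα hy)
  have h3 : ∀ᶠ s in 𝓝[>] t, s < t + ε := nhdsWithin_le_nhds (eventually_lt_nhds (by linarith))
  filter_upwards [h3, self_mem_nhdsWithin] with s hs1 hs2
  have hs2' : t < s := hs2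
  have hgood : ∀ r ∈ Icc t s, Real.cos r • α₀ + Real.sin r • α₂ ≠ 0 ∧
      Real.cos r • y₀ + Real.sin r • y₂ ≠ 0 := fun r hr => hball (by
    rw [Real.dist_eq, abs_of_nonneg (by linarith [hr.1])]
    linarith [hr.2])
  rw [hXv t (hgood t (left_mem_Icc.2 hs2'.le)), hXv s (hgood s (right_mem_Icc.2 hs2'.le))]
  exact symm_dist_le_of_speed (c := fun s => ee e T (vv (cc D) α₀ α₂ y₀ y₂ s)) hs2'.le
    (by positivity)
    (fun r hr => (m.vv_speed h0 h2 h hz₀ hz₂ (hgood r hr).1 (hgood r hr).2).1)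
    fun r hr => (m.vv_speed h0 h2 h hz₀ hz₂ (hgood r hr).1 (hgood r hr).2).2.le

end

end Vale.Agent.P231.QF
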