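import Vale.Agent.P231.QF.QF7

/-! P231: the isometry with the quaternionic projective space, final form. -/

set_option maxSynthPendingDepth 3
set_option linter.unusedSectionVars false

open Bundle Manifold Set Filter Module
open scoped ContDiff Manifold Topology

namespace Vale.Agent.P231.QF

noncomputable section

open Vale.Agent.P234 Vale.Agent.P231 Vale.Agent.P231.H703 Vale.Agent.P231.H775
  Vale.Agent.P231.H512

variable {E : Type*} [NormedAddCommGroup E] [NormedSpace ℝ E] [FiniteDimensional ℝ E]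
  {M : Type*} [MetricSpace M] [ChartedSpace E M]
  [RiemannianBundle (fun x : M => TangentSpace 𝓘(ℝ, E) x)]
  [IsManifold 𝓘(ℝ, E) ∞ M]
  [IsContMDiffRiemannianBundle 𝓘(ℝ, E) ∞ E (fun x : M => TangentSpace 𝓘(ℝ, E) x)]
  {e : ∀ x : M, TangentSpace 𝓘(ℝ, E) x → M}
  [CompactSpace M] [ConnectedSpace M] [IsRiemannianManifold 𝓘(ℝ, E) M]

/-- **A Blaschke manifold of model volume and cut multiplicity three is isometric to the
quaternionic projective space.** -/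
theorem isometric_of_rig {D : ℝ} (R : Rig e D 3) (p : M) (hdim : 5 ≤ finrank ℝ E) :
    ∃ n : ℕ, 4 * n = finrank ℝ E ∧ ∃ Z : M → HV (n + 1),
      (∀ x, ‖Z x‖ = 1) ∧
      (∀ x y, dist x y = 2 * D / Real.pi * Real.arccos ‖hp (Z x) (Z y)‖) ∧
      ∀ z, ‖z‖ = 1 → ∃ x, ‖hp (Z x) z‖ = 1 := by
  obtain ⟨P, hP⟩ := R.proj
  obtain ⟨n, T, hn, hT⟩ := exists_T R hP hdim p
  have m : Mod e D p T := ⟨R, P, hP, hT⟩
  refine ⟨n, hn, ZZ R.facts D T, m.norm_ZZ, m.dist_eq, fun z hz => ?_⟩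
  obtain ⟨x, μ, hμ, hx⟩ := m.surj hz
  refine ⟨x, ?_⟩
  have hx' : ZZ R.facts D T x = rm z μ := hx
  rw [hx', hp_rm_left, norm_mul, norm_star, hμ, one_mul, hp_self, hz]
  simp

/-- elementary form -/
theorem isometric_of_rig' {D : ℝ} (R : Rig e D 3) (p : M) (hdim : 5 ≤ finrank ℝ E) :
    ∃ n : ℕ, 4 * n = finrank ℝ E ∧ ∃ Z : M → Fin (n + 1) → Quaternion ℝ,
      (∀ x, ∑ i, ‖Z x i‖ ^ 2 = 1) ∧
      (∀ x y, dist x y = 2 * D / Real.pi * Real.arccos ‖∑ i, star (Z x i) * Z y i‖) ∧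
      ∀ z : Fin (n + 1) → Quaternion ℝ, ∑ i, ‖z i‖ ^ 2 = 1 →
        ∃ x, ‖∑ i, star (Z x i) * z i‖ = 1 := by
  obtain ⟨n, hn, Z, h1, h2, h3⟩ := isometric_of_rig R p hdim
  refine ⟨n, hn, fun x i => Z x i, fun x => ?_, h2, fun z hz => ?_⟩
  · have h4 := PiLp.norm_sq_eq_of_L2 (fun _ : Fin (n + 1) => Quaternion ℝ) (Z x)
    rw [h1 x, one_pow] at h4
    exact h4.symm
  · have h4 : ‖(WithLp.toLp 2 z : HV (n + 1))‖ = 1 := by
      have h5 := PiLp.norm_sq_eq_of_L2 (fun _ : Fin (n + 1) => Quaternion ℝ)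
        (WithLp.toLp 2 z : HV (n + 1))
      have h6 : ‖(WithLp.toLp 2 z : HV (n + 1))‖ ^ 2 = 1 := h5.trans hz
      exact (pow_eq_one_iff_of_nonneg (norm_nonneg _) two_ne_zero).1 h6
    exact h3 _ h4

end

end Vale.Agent.P231.QF
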