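import Vale.Agent.P231.H512.Iso3
import Vale.Agent.P231.WR.QAlg2
import Vale.Agent.P231.WR.QCoord
import Vale.Agent.P231.QF.QF1

/-! P231: quaternionic coordinates of the tangent space of a Blaschke manifold of model volume and
cut multiplicity three. -/

set_option maxSynthPendingDepth 3
set_option linter.unusedSectionVars false

open Bundle Manifold Set Filter Module
open scoped ContDiff Manifold Topology ENNReal

namespace Vale.Agent.P231.QF

noncomputable section

open Vale.Agent.P234 Vale.Agent.P231 Vale.Agent.P231.H703 Vale.Agent.P231.H775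
  Vale.Agent.P231.H512

variable {E : Type*} [NormedAddCommGroup E] [NormedSpace ℝ E] [FiniteDimensional ℝ E]
  {M : Type*} [MetricSpace M] [ChartedSpace E M]
  [RiemannianBundle (fun x : M => TangentSpace 𝓘(ℝ, E) x)]
  [IsManifold 𝓘(ℝ, E) ∞ M]
  [IsContMDiffRiemannianBundle 𝓘(ℝ, E) ∞ E (fun x : M => TangentSpace 𝓘(ℝ, E) x)]
  {e : ∀ x : M, TangentSpace 𝓘(ℝ, E) x → M}
  [CompactSpace M] [ConnectedSpace M] [IsRiemannianManifold 𝓘(ℝ, E) M]

/-- reading as a tangent vector -/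
def tof (p : M) (v : E) : TangentSpace 𝓘(ℝ, E) p := v

/-- the projections onto the line depend only on the line -/
theorem PData.proj_eq (F : Facts e) {D : ℝ} (hD : 0 < D)
    (hcl : ∀ (x : M) (v : E), nm x v = 2 * D → e x v = x) {l : ℕ}
    {P : ∀ _ : M, E → E →ₗ[ℝ] E} (hP : ∀ x, PData e D l x (P x))
    (hσ : ∀ p : M, ∃ σ : M ≃ᵢ M, ∀ v : E, σ (e p v) = e p (-v)) (x : M) {u u' : E}
    (hu : nm x u = 1) (hu' : nm x u' = 1) (huu' : u' = ip x u u' • u + P x u u') (z : E) :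
    ip x u z • u + P x u z = ip x u' z • u' + P x u' z := by
  obtain ⟨τ, L, hτ, hLi, hL⟩ := refl_exists F hD hcl hσ x hu
  have h1 := refl_core F hD hcl hP hu rfl (τ := τ) hτ (L := L.toLinearMap) hL hLi z
  have h2 := refl_core F hD hcl hP hu' (refl_same_point F hD hcl (hP x) hu hu' huu')
    (τ := τ) hτ (L := L.toLinearMap) hL hLi z
  rw [h1] at h2
  have h3 := sub_right_injective h2
  exact smul_right_injective E (two_ne_zero (α := ℝ)) h3

/-- the same in orthonormal coordinates -/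
theorem PData.proj_eq' (F : Facts e) {D : ℝ} (hD : 0 < D)
    (hcl : ∀ (x : M) (v : E), nm x v = 2 * D → e x v = x) {l : ℕ}
    {P : ∀ _ : M, E → E →ₗ[ℝ] E} (hP : ∀ x, PData e D l x (P x))
    (hσ : ∀ p : M, ∃ σ : M ≃ᵢ M, ∀ v : E, σ (e p v) = e p (-v)) (x : M) (u u' w : Eu E)
    (hu : ‖u‖ = 1) (hu' : ‖u'‖ = 1) (huu' : trP x (P x) u u' = u') :
    (inner ℝ u w : ℝ) • u + trP x (P x) u w = (inner ℝ u' w : ℝ) • u' + trP x (P x) u' w := by
  have h0 : (inner ℝ u u' : ℝ) = 0 := by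
    rw [real_inner_comm, ← huu']
    exact (hP x).sph_perp hu u'
  have h1 := PData.proj_eq F hD hcl hP hσ x (u := fr x u) (u' := fr x u') (by rw [nm_fr, hu])
    (by rw [nm_fr, hu']) (by
      rw [ip_fr, h0, zero_smul, zero_add, ← sph_fr_trP, huu']) (fr x w)
  rw [ip_fr, ip_fr, ← sph_fr_trP, ← sph_fr_trP, ← map_smul, ← map_smul, ← map_add, ← map_add] at h1
  exact (fr x).injective h1

/-- the quaternion with given components -/
def qq (a b c d : ℝ) : Quaternion ℝ := ⟨a, b, c, d⟩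

theorem qq_re (a b c d : ℝ) : (qq a b c d).re = a := rfl
theorem qq_imI (a b c d : ℝ) : (qq a b c d).imI = b := rfl
theorem qq_imJ (a b c d : ℝ) : (qq a b c d).imJ = c := rfl
theorem qq_imK (a b c d : ℝ) : (qq a b c d).imK = d := rfl

theorem qq_mul (a b c d a' b' c' d' : ℝ) : qq a b c d * qq a' b' c' d' =
    qq (a * a' - b * b' - c * c' - d * d') (a * b' + b * a' + c * d' - d * c')
      (a * c' - b * d' + c * a' + d * b') (a * d' + b * c' - c * b' + d * a') := by
  apply Quaternion.ext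
  · rw [Quaternion.re_mul]; rfl
  · rw [Quaternion.imI_mul]; rfl
  · rw [Quaternion.imJ_mul]; rfl
  · rw [Quaternion.imK_mul]; rfl

theorem qq_add (a b c d a' b' c' d' : ℝ) : qq a b c d + qq a' b' c' d' =
    qq (a + a') (b + b') (c + c') (d + d') := rfl

theorem qq_neg (a b c d : ℝ) : -qq a b c d = qq (-a) (-b) (-c) (-d) := rfl

theorem smul_qq (r a b c d : ℝ) : r • qq a b c d = qq (r * a) (r * b) (r * c) (r * d) := rfl

/-- quaternionic coordinates in the abstract setting -/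
theorem exists_T_abs {V : Type*} [NormedAddCommGroup V] [InnerProductSpace ℝ V]
    [FiniteDimensional ℝ V] {I J K : V →ₗ[ℝ] V} (h : WR.QCS I J K) :
    ∃ (n : ℕ) (T : V ≃ₗ[ℝ] (Fin n → Quaternion ℝ)), 4 * n = finrank ℝ V ∧
      (∀ v w, hp (WithLp.toLp 2 (T v)) (WithLp.toLp 2 (T w)) =
        qq (inner ℝ v w) (inner ℝ (I v) w) (inner ℝ (J v) w) (-inner ℝ (K v) w)) ∧
      ∀ v (a b c d : ℝ), (WithLp.toLp 2 (T (a • v + (b • I v + c • J v + d • K v))) : HV n) =
        rm (WithLp.toLp 2 (T v)) (qq a b c (-d)) := by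
  obtain ⟨n, hn, T, h1, h2, h3⟩ := WR.exists_coord h
  have h2 : ∀ v i, T (I v) i = T v i * qq 0 1 0 0 := h2
  have h3 : ∀ v i, T (J v) i = T v i * qq 0 0 1 0 := h3
  have h4 : ∀ v i, T (K v) i = T v i * qq 0 0 0 (-1) := by
    intro v i
    rw [← h.mul, h2, h3, mul_assoc, qq_mul]
    congr 1
    apply Quaternion.ext
    · rw [qq_re, qq_re]; norm_num
    · rw [qq_imI, qq_imI]; norm_num
    · rw [qq_imJ, qq_imJ]; norm_num
    · rw [qq_imK, qq_imK]; norm_num
  have h1' : ∀ v w, (hp (WithLp.toLp 2 (T v)) (WithLp.toLp 2 (T w))).re = (inner ℝ v w : ℝ) := by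
    intro v w
    rw [← h1 v w]
    unfold hp
    rw [re_sum]
  have hI : ∀ v, (WithLp.toLp 2 (T (I v)) : HV n) = rm (WithLp.toLp 2 (T v)) (qq 0 1 0 0) := by
    intro v
    ext1 i
    exact h2 v i
  have hJ : ∀ v, (WithLp.toLp 2 (T (J v)) : HV n) = rm (WithLp.toLp 2 (T v)) (qq 0 0 1 0) := by
    intro v
    ext1 i
    exact h3 v i
  have hK : ∀ v, (WithLp.toLp 2 (T (K v)) : HV n) = rm (WithLp.toLp 2 (T v)) (qq 0 0 0 (-1)) := by
    intro v
    ext1 i
    exact h4 v i
  refine ⟨n, T, hn, fun v w => ?_, fun v a b c d => ?_⟩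
  · apply Quaternion.ext
    · exact h1' v w
    · have h5 := h1' (I v) w
      rw [hI, hp_rm_left, Quaternion.re_mul] at h5
      simp only [Quaternion.re_star, Quaternion.imI_star, Quaternion.imJ_star,
        Quaternion.imK_star, qq_re, qq_imI, qq_imJ, qq_imK] at h5
      rw [qq_imI]
      linarith
    · have h5 := h1' (J v) w
      rw [hJ, hp_rm_left, Quaternion.re_mul] at h5
      simp only [Quaternion.re_star, Quaternion.imI_star, Quaternion.imJ_star,
        Quaternion.imK_star, qq_re, qq_imI, qq_imJ, qq_imK] at h5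
      rw [qq_imJ]
      linarith
    · have h5 := h1' (K v) w
      rw [hK, hp_rm_left, Quaternion.re_mul] at h5
      simp only [Quaternion.re_star, Quaternion.imI_star, Quaternion.imJ_star,
        Quaternion.imK_star, qq_re, qq_imI, qq_imJ, qq_imK] at h5
      rw [qq_imK]
      linarith
  · ext1 i
    have e0 : T (a • v + (b • I v + c • J v + d • K v)) i =
        a • T v i + (b • T (I v) i + c • T (J v) i + d • T (K v) i) := by
      simp only [map_add, map_smul, Pi.add_apply, Pi.smul_apply]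
    have e1 : a • T v i = T v i * (a • (1 : Quaternion ℝ)) := by
      rw [mul_smul_comm, mul_one]
    have e2 : (1 : Quaternion ℝ) = qq 1 0 0 0 := rfl
    show T (a • v + (b • I v + c • J v + d • K v)) i = T v i * qq a b c (-d)
    rw [e0, h2, h3, h4, e1, ← mul_smul_comm, ← mul_smul_comm, ← mul_smul_comm, ← mul_add,
      ← mul_add, ← mul_add, e2, smul_qq, smul_qq, smul_qq, smul_qq, qq_add, qq_add, qq_add]
    congr 1
    apply Quaternion.ext
    · rw [qq_re, qq_re]; ring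
    · rw [qq_imI, qq_imI]; ring
    · rw [qq_imJ, qq_imJ]; ring
    · rw [qq_imK, qq_imK]; ring

/-- **quaternionic coordinates of the tangent space** -/
theorem exists_T {D : ℝ} (R : Rig e D 3) {P : ∀ _ : M, E → E →ₗ[ℝ] E}
    (hP : ∀ x, PData e D 3 x (P x)) (hdim : 5 ≤ finrank ℝ E) (p : M) :
    ∃ (n : ℕ) (T : TangentSpace 𝓘(ℝ, E) p ≃ₗᵢ[ℝ] HV n), 4 * n = finrank ℝ E ∧
      ∀ u w : TangentSpace 𝓘(ℝ, E) p, ‖u‖ = 1 →
        T ((inner ℝ u w : ℝ) • u + tof p (P p (u : E) (w : E))) = rm (T u) (hp (T u) (T w)) := by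
  obtain ⟨B, hB⟩ := exists_form R.facts R.pos (hP p)
  obtain ⟨I, J, K, hq, h1⟩ := WR.exists_QCS hB (fun u hu => (hP p).sph_rank hu)
    (fun u u' w hu hu' huu' => PData.proj_eq' R.facts R.pos R.closed hP R.symm p u u' w hu hu' huu')
    (by rw [finrank_euclideanSpace_fin]; exact hdim)
  obtain ⟨n, T, hn, h2, h3⟩ := exists_T_abs hq
  rw [finrank_euclideanSpace_fin] at hn
  have hfs : ∀ v : E, fr p ((fr p).symm v) = v := fun v => (fr p).apply_symm_apply v
  let L : TangentSpace 𝓘(ℝ, E) p ≃ₗ[ℝ] HV n :=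
    ((fr p : Eu E ≃L[ℝ] E).symm.toLinearEquiv.trans T).trans (WithLp.linearEquiv 2 ℝ _).symm
  have hL : ∀ v : TangentSpace 𝓘(ℝ, E) p, L v = WithLp.toLp 2 (T ((fr p).symm v)) := fun v => rfl
  have hin : ∀ v w : TangentSpace 𝓘(ℝ, E) p,
      (inner ℝ ((fr (E := E) p).symm v : Eu E) ((fr (E := E) p).symm w) : ℝ) = inner ℝ v w :=
    fun v w => (sph_ip_symm (E := E) p v w).symm
  have hLn : ∀ v : TangentSpace 𝓘(ℝ, E) p, ‖L v‖ = ‖v‖ := by
    intro v
    have h4 := congrArg (fun q : Quaternion ℝ => q.re) (h2 ((fr (E := E) p).symm v)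
      ((fr (E := E) p).symm v))
    rw [hp_self, qq_re, hin, real_inner_self_eq_norm_sq] at h4
    simp only [Quaternion.re_coe] at h4
    exact (sq_eq_sq₀ (norm_nonneg _) (norm_nonneg _)).1 h4
  refine ⟨n, ⟨L, hLn⟩, hn, fun u w hu => ?_⟩
  have key : ∀ (u' w' : E), nm p u' = 1 →
      (fr p).symm (ip p u' w' • u' + P p u' w') =
      (inner ℝ ((fr p).symm u' : Eu E) ((fr p).symm w') : ℝ) • (fr p).symm u' +
        ((inner ℝ (I ((fr p).symm u')) ((fr p).symm w') : ℝ) • I ((fr p).symm u') +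
        (inner ℝ (J ((fr p).symm u')) ((fr p).symm w') : ℝ) • J ((fr p).symm u') +
        (inner ℝ (K ((fr p).symm u')) ((fr p).symm w') : ℝ) • K ((fr p).symm u')) := by
    intro u' w' hu'
    have ha1 : ‖((fr p).symm u' : Eu E)‖ = 1 := by rw [← sph_nm_symm, hu']
    rw [← h1 _ ((fr p).symm w') ha1, ← sph_ip_symm]
    apply (fr p).injective
    rw [hfs, map_add, map_smul, sph_fr_trP, hfs, hfs]
  have h6 : ∀ (u' w' : E), nm p u' = 1 → (WithLp.toLp 2 (T ((fr p).symm (ip p u' w' • u' +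
      P p u' w'))) : HV n) =
      rm (WithLp.toLp 2 (T ((fr p).symm u'))) (hp (WithLp.toLp 2 (T ((fr p).symm u')))
        (WithLp.toLp 2 (T ((fr p).symm w')))) := by
    intro u' w' hu'
    rw [key u' w' hu', h3, h2]
  exact h6 u w hu

end

end Vale.Agent.P231.QF
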